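import Mathlib

/-!
# Systems of equations over a group: definitions
-/

namespace Vale.Agent.N174B

universe u

variable {G : Type u} [Group G] {m n : ℕ}

/-- The free product `G * F_n`. -/
abbrev FP (G : Type u) [Group G] (n : ℕ) : Type u := Monoid.Coprod G (FreeGroup (Fin n))

/-- The exponent sum of the unknown `x_j`: the homomorphism `G * F_n → ℤ` that sends `x_j` to `1`
and kills `G` and the other unknowns. -/
def expo (j : Fin n) : FP G n →* Multiplicative ℤ :=
  Monoid.Coprod.lift 1 (FreeGroup.lift fun l => Multiplicative.ofAdd (if j = l then 1 else 0))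

/-- The exponent-sum matrix of the system `w_1, …, w_m`. -/
def expMat (w : Fin m → FP G n) : Matrix (Fin m) (Fin n) ℤ :=
  Matrix.of fun i j => Multiplicative.toAdd (expo j (w i))

/-- The rank over `ℚ` of an integer matrix. -/
noncomputable def rankQ {J : Type} [Fintype J] (M : Matrix (Fin m) J ℤ) : ℕ :=
  (M.map fun a : ℤ => (a : ℚ)).rank

/-- `h_1, …, h_n ∈ H` solve the system `w` along `ι : G → H`. -/
def Solves {H : Type u} [Group H] (ι : G →* H) (h : Fin n → H) (w : Fin m → FP G n) : Prop :=
  ∀ i, Monoid.Coprod.lift ι (FreeGroup.lift h) (w i) = 1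

/-- The system `w` has a solution in a group containing `G`. -/
def Solvable (w : Fin m → FP G n) : Prop :=
  ∃ (H : Type u) (_ : Group H) (ι : G →* H) (h : Fin n → H), Function.Injective ι ∧ Solves ι h w

/-- The system `w` with coefficients in `K ≤ G` has a solution, in a group containing `G`, that
commutes with the centralizer of `K` in `G`. -/
def SolvableComm (K : Subgroup G) (w : Fin m → FP K n) : Prop :=
  ∃ (H : Type u) (_ : Group H) (ι : G →* H) (h : Fin n → H), Function.Injective ι ∧
    Solves (ι.comp K.subtype) h w ∧
    ∀ c ∈ Subgroup.centralizer (K : Set G), ∀ j, ι c * h j = h j * ι c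

/-- The group `(G * F_n) / ⟨⟨w_1, …, w_m⟩⟩`. -/
abbrev Univ (w : Fin m → FP G n) : Type u := FP G n ⧸ Subgroup.normalClosure (Set.range w)

/-- The canonical homomorphism `G → (G * F_n) / ⟨⟨w_1, …, w_m⟩⟩`. -/
def can (w : Fin m → FP G n) : G →* Univ w := (QuotientGroup.mk' _).comp Monoid.Coprod.inl

/-- The canonical homomorphism from `G * F(unknowns outside S)` to the group of the system. -/
def canOut (w : Fin m → FP G n) (S : Finset (Fin n)) :
    Monoid.Coprod G (FreeGroup {j // j ∉ S}) →* Univ w :=
  (QuotientGroup.mk' _).comp (Monoid.Coprod.map (MonoidHom.id G) (FreeGroup.map Subtype.val))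

/-- The homomorphism `f` is injective. -/
def Inj {U : Type u} [Group U] (f : G →* U) : Prop := Function.Injective f

variable (k : Type u) [CommRing k] (A : Type u) [AddCommGroup A] [Module k A] {U : Type u}
  [Group U]

/-- The `k`-module `A` with the trivial action of `G`, obtained by restriction along `f`. -/
noncomputable abbrev triv (f : G →* U) : Rep k G := Rep.res f (Rep.trivial k U A)

/-- The restriction `H²(U, A) → H²(G, A)` along `f : G → U`, trivial action on `A`. -/
noncomputable def resH2 (f : G →* U) :
    groupCohomology (Rep.trivial k U A) 2 → groupCohomology (triv k A f) 2 :=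
  (groupCohomology.map f (CategoryTheory.CategoryStruct.id (triv k A f)) 2).hom

/-- The map `H₂(G, A) → H₂(U, A)` induced by `f : G → U`, trivial action on `A`. -/
noncomputable def mapH2 (f : G →* U) :
    groupHomology (triv k A f) 2 → groupHomology (Rep.trivial k U A) 2 :=
  (groupHomology.map f (CategoryTheory.CategoryStruct.id (triv k A f)) 2).hom

/-- Restriction in `H²` is onto and the map in `H₂` is injective. -/
def H2Good (f : G →* U) : Prop :=
  Function.Surjective (resH2 k A f) ∧ Function.Injective (mapH2 k A f)

end Vale.Agent.N174B
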