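import Vale.Agent.N174B.Fin
import Vale.Agent.N174B.Defs

/-!
# Solutions commuting with the centralizer of the coefficients; central extensions
-/

namespace Vale.Agent.N174B

open Vale.Agent.P174 Monoid.Coprod

universe u

variable {m n : ℕ}

theorem expMat_eq {G : Type u} [Group G] (w : Fin m → FP G n) : expMat w = expMatrix w := by
  ext i j
  have : expo j = ((Pi.evalAddMonoidHom (fun _ : Fin n => ℤ) j).toMultiplicative).comp
      (expSum G n) := by
    apply Monoid.Coprod.hom_ext
    · ext g : 1
      simp [expo, expSum]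
    · ext l : 1
      simp [expo, expSum, Pi.single_apply]
  rw [expMat, Matrix.of_apply, this]
  rfl

theorem fullRank_iff {G : Type u} [Group G] (w : Fin m → FP G n) :
    rankQ (expMat w) = m ↔ FullRank ℚ w := by
  rw [expMat_eq]
  rfl

theorem can_inj {G : Type u} [Group G] {w : Fin m → FP G n} (hw : rankQ (expMat w) = m) :
    Function.Injective (can w) := by
  rw [injective_iff_map_eq_one]
  intro g hg
  exact howie_inj w ((fullRank_iff w).1 hw) ((QuotientGroup.eq_one_iff _).1 hg)

/-- Two images of a group with the same kernel can be amalgamated. -/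
theorem amalg {P G M : Type u} [Group P] [Group G] [Group M] (α : P →* G) (β : P →* M)
    (h : α.ker = β.ker) : ∃ (H : Type u) (_ : Group H) (ιG : G →* H) (ιM : M →* H),
      Function.Injective ιG ∧ ∀ p, ιG (α p) = ιM (β p) := by
  set a : P →* G × M := (MonoidHom.inl G M).comp α with ha
  set b : P →* G × M := (MonoidHom.inr G M).comp β with hb
  have hab : a.ker = b.ker := by
    ext p
    have h1 : p ∈ α.ker ↔ p ∈ β.ker := by rw [h]
    simpa [ha, hb, MonoidHom.mem_ker, Prod.ext_iff] using h1
  set e : a.range ≃* b.range := (QuotientGroup.quotientKerEquivRange a).symm.trans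
    ((QuotientGroup.quotientMulEquivOfEq hab).trans (QuotientGroup.quotientKerEquivRange b))
    with he
  have he' : ∀ p, (e ⟨a p, p, rfl⟩ : G × M) = b p := by
    intro p
    have h1 : (QuotientGroup.quotientKerEquivRange a).symm ⟨a p, p, rfl⟩ = QuotientGroup.mk p := by
      rw [MulEquiv.symm_apply_eq]
      rfl
    rw [he, MulEquiv.trans_apply, h1]
    rfl
  refine ⟨HNNExtension (G × M) a.range b.range e, inferInstance,
    (MulAut.conj HNNExtension.t).toMonoidHom.comp (HNNExtension.of.comp (MonoidHom.inl G M)),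
    HNNExtension.of.comp (MonoidHom.inr G M), ?_, fun p => ?_⟩
  · intro x y hxy
    have h1 := HNNExtension.of_injective e ((MulAut.conj HNNExtension.t).injective hxy)
    exact congrArg Prod.fst h1
  · have h1 := HNNExtension.equiv_eq_conj (φ := e) ⟨a p, p, rfl⟩
    rw [he'] at h1
    exact h1.symm

section

variable {G : Type*} [Group G]

/-- The group defined by the system and the commutation relations. -/
abbrev UnivC (Z : Subgroup G) (w : Fin m → Words G n) :=
  Words G n ⧸ Subgroup.normalClosure (Set.range w ∪ comm Z n)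

/-- The quotient map. -/
def mkC (Z : Subgroup G) (w : Fin m → Words G n) : Words G n →* UnivC Z w := QuotientGroup.mk' _

variable {Z : Subgroup G} {w : Fin m → Words G n}

theorem mkC_w (i : Fin m) : mkC Z w (w i) = 1 :=
  (QuotientGroup.eq_one_iff _).2 (Subgroup.subset_normalClosure (Or.inl ⟨i, rfl⟩))

theorem mkC_inj (hZ : ∀ z ∈ Z, ∀ x, z * x = x * z) (hw : FullRank ℚ w) :
    Function.Injective ((mkC Z w).comp inl) := by
  rw [injective_iff_map_eq_one]
  intro g hg
  exact central_inj hZ w hw ((QuotientGroup.eq_one_iff _).1 hg)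

theorem mkC_central (hZ : ∀ z ∈ Z, ∀ x, z * x = x * z) {z : G} (hz : z ∈ Z) (y : UnivC Z w) :
    mkC Z w (inl z) * y = y * mkC Z w (inl z) := by
  obtain ⟨v, rfl⟩ := QuotientGroup.mk'_surjective _ y
  have h1 : (MulAut.conj (mkC Z w (inl z))).toMonoidHom.comp (mkC Z w) = mkC Z w := by
    apply Monoid.Coprod.hom_ext
    · ext g : 1
      change mkC Z w (inl z) * mkC Z w (inl g) * (mkC Z w (inl z))⁻¹ = mkC Z w (inl g)
      rw [← map_mul, ← map_mul, hZ z hz, map_mul, map_mul, mul_inv_cancel_right]
    · ext j : 1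
      change mkC Z w (inl z) * mkC Z w (inr (FreeGroup.of j)) * (mkC Z w (inl z))⁻¹ =
        mkC Z w (inr (FreeGroup.of j))
      have h2 : mkC Z w
          (inl z * inr (FreeGroup.of j) * (inl z)⁻¹ * (inr (FreeGroup.of j))⁻¹) = 1 :=
        (QuotientGroup.eq_one_iff _).2 (Subgroup.subset_normalClosure (Or.inr ⟨z, hz, j, rfl⟩))
      rwa [map_mul, map_mul, map_mul, map_inv, map_inv, mul_inv_eq_one] at h2
  have h2 : mkC Z w (inl z) * mkC Z w v * (mkC Z w (inl z))⁻¹ = mkC Z w v :=
    DFunLike.congr_fun h1 v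
  exact mul_inv_eq_iff_eq_mul.1 h2

end

/-- **Solutions commuting with the centralizer of the coefficients.** -/
theorem solvable_centralizer {G : Type u} [Group G] (K : Subgroup G) (w : Fin m → FP K n)
    (hw : rankQ (expMat w) = m) :
    ∃ (H : Type u) (_ : Group H) (ι : G →* H) (h : Fin n → H), Function.Injective ι ∧
      Solves (ι.comp K.subtype) h w ∧
      ∀ c ∈ Subgroup.centralizer (K : Set G), ∀ j, ι c * h j = h j * ι c := by
  set C := Subgroup.centralizer (K : Set G) with hC
  set Z := Subgroup.center K with hZdef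
  have hZ : ∀ z ∈ Z, ∀ x, z * x = x * z := fun z hz x => (Subgroup.mem_center_iff.1 hz x).symm
  have hKC : ∀ (k : K) (c : C), Commute (K.subtype k) (C.subtype c) := fun k c => c.2 k k.2
  set μ : K × C →* G := K.subtype.noncommCoprod C.subtype hKC with hμ
  have hμa : ∀ p : K × C, μ p = (p.1 : G) * p.2 := fun p => rfl
  set j : K →* UnivC Z w := (mkC Z w).comp inl with hj
  have hji : Function.Injective j := mkC_inj hZ ((fullRank_iff w).1 hw)
  set ν : K × C →* UnivC Z w × C := j.prodMap (MonoidHom.id C) with hν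
  have hνi : Function.Injective ν := fun p q h =>
    Prod.ext (hji (congrArg Prod.fst h)) (Prod.ext_iff.1 h).2
  have : (μ.ker.map ν).Normal := ⟨by
    rintro _ ⟨p, hp, rfl⟩ y
    have h1 : (p.1 : G) * p.2 = 1 := hp
    have h2 : (p.2 : G) = (p.1 : G)⁻¹ := eq_inv_of_mul_eq_one_right h1
    have h3 : p.1 ∈ Z := by
      rw [hZdef, Subgroup.mem_center_iff]
      intro k
      have h4 : (k : G) * p.2 = p.2 * k := p.2.2 k k.2
      rw [h2] at h4
      exact Subtype.ext (Commute.inv_right_iff.1 h4)
    have h5 : y * ν p = ν p * y := by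
      refine Prod.ext (mkC_central hZ h3 y.1).symm (Subtype.ext ?_)
      have h6 : (p.1 : G) * y.2 = y.2 * p.1 := y.2.2 p.1 p.1.2
      change (y.2 : G) * p.2 = p.2 * y.2
      rw [h2]
      exact (Commute.inv_left h6).symm
    rw [h5, mul_inv_cancel_right]
    exact ⟨p, hp, rfl⟩⟩
  set q : UnivC Z w × C →* (UnivC Z w × C) ⧸ μ.ker.map ν := QuotientGroup.mk' _ with hq
  obtain ⟨H, _, ιG, ιM, h1, h2⟩ := amalg μ (q.comp ν) (by
    ext p
    rw [MonoidHom.mem_ker (f := q.comp ν), MonoidHom.comp_apply, hq, QuotientGroup.mk'_apply,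
      QuotientGroup.eq_one_iff, Subgroup.mem_map_iff_mem hνi])
  set F : FP K n →* H := (ιM.comp q).comp ((MonoidHom.inl _ _).comp (mkC Z w)) with hF
  refine ⟨H, inferInstance, ιG, fun l => F (inr (FreeGroup.of l)), h1, fun i => ?_,
    fun c hc l => ?_⟩
  · have h3 : Monoid.Coprod.lift (ιG.comp K.subtype)
        (FreeGroup.lift fun l => F (inr (FreeGroup.of l))) = F := by
      apply Monoid.Coprod.hom_ext
      · ext k : 1
        have h4 := h2 (k, 1)
        rw [hμa, OneMemClass.coe_one, mul_one] at h4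
        exact h4
      · ext l : 1
        simp
    rw [h3, hF]
    simp only [MonoidHom.comp_apply, mkC_w, map_one]
  · have h4 := h2 (1, ⟨c, hc⟩)
    rw [hμa] at h4
    have h5 : ιG c = ιM (q (1, ⟨c, hc⟩)) := by
      simpa [hν] using h4
    rw [h5, hF]
    simp only [MonoidHom.comp_apply, ← map_mul]
    congr 2
    simp

/-- **Central extensions of `G` extend to the group of the system.** -/
theorem central_ext {G : Type u} [Group G] {E : Type*} [Group E] (p : E →* G)
    (hp : Function.Surjective p) (hc : ∀ z ∈ p.ker, ∀ x, z * x = x * z) (w : Fin m → FP G n)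
    (hw : rankQ (expMat w) = m) :
    ∃ (v : Fin m → Words E n) (P : UnivC p.ker v →* Univ w),
      Function.Surjective P ∧ Function.Injective ((mkC p.ker v).comp inl) ∧
      (∀ e, P (mkC p.ker v (inl e)) = can w (p e)) ∧
      ∀ y, P y = 1 → ∃ z ∈ p.ker, y = mkC p.ker v (inl z) := by
  set q : Words E n →* Words G n := Monoid.Coprod.map p (MonoidHom.id _) with hq
  have hqs : Function.Surjective q := by
    intro x
    induction x using Monoid.Coprod.induction_on with
    | inl g =>
      obtain ⟨e, rfl⟩ := hp g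
      exact ⟨inl e, rfl⟩
    | inr z => exact ⟨inr z, rfl⟩
    | mul a b ha hb =>
      obtain ⟨a, rfl⟩ := ha
      obtain ⟨b, rfl⟩ := hb
      exact ⟨a * b, map_mul _ _ _⟩
  choose v hv using fun i => hqs (w i)
  have hvr : FullRank ℚ v := by
    rw [← fullRank_map p]
    have : (fun i => Monoid.Coprod.map p (MonoidHom.id _) (v i)) = w := funext hv
    rw [this]
    exact (fullRank_iff w).1 hw
  set π : Words G n →* Univ w := QuotientGroup.mk' _ with hπ
  have hle : Subgroup.normalClosure (Set.range v ∪ comm p.ker n) ≤ (π.comp q).ker := by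
    apply Subgroup.normalClosure_le_normal
    rintro u (⟨i, hi⟩ | ⟨z, hz, j, hu⟩)
    · rw [← hi, SetLike.mem_coe, MonoidHom.mem_ker, MonoidHom.comp_apply, hv]
      exact (QuotientGroup.eq_one_iff _).2 (Subgroup.subset_normalClosure ⟨i, rfl⟩)
    · have h1 : q (inl z) = 1 := by
        rw [hq, map_apply_inl, MonoidHom.mem_ker.1 hz, map_one]
      rw [hu, SetLike.mem_coe, MonoidHom.mem_ker, MonoidHom.comp_apply]
      simp [h1]
  refine ⟨v, QuotientGroup.lift _ (π.comp q) hle, fun y => ?_, mkC_inj hc hvr, fun e => rfl,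
    fun y hy => ?_⟩
  · obtain ⟨x, rfl⟩ := QuotientGroup.mk'_surjective _ y
    obtain ⟨x, rfl⟩ := hqs x
    exact ⟨mkC p.ker v x, rfl⟩
  · obtain ⟨x, rfl⟩ := QuotientGroup.mk'_surjective _ y
    set j : E →* UnivC p.ker v := (mkC p.ker v).comp inl with hj
    have : (p.ker.map j).Normal := ⟨by
      rintro _ ⟨z, hz, rfl⟩ y
      have h1 : y * j z = j z * y := (mkC_central hc hz y).symm
      rw [h1, mul_inv_cancel_right]
      exact ⟨z, hz, rfl⟩⟩
    set r : UnivC p.ker v →* UnivC p.ker v ⧸ p.ker.map j := QuotientGroup.mk' _ with hr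
    have hk : p.ker ≤ (r.comp j).ker := fun z hz =>
      (QuotientGroup.eq_one_iff _).2 ⟨z, hz, rfl⟩
    set b : G →* UnivC p.ker v ⧸ p.ker.map j := p.liftOfSurjective hp ⟨r.comp j, hk⟩ with hb
    have hbp : ∀ e, b (p e) = r (j e) := fun e =>
      MonoidHom.liftOfRightInverse_comp_apply p _ _ ⟨r.comp j, hk⟩ e
    set β : Words G n →* UnivC p.ker v ⧸ p.ker.map j :=
      Monoid.Coprod.lift b ((r.comp (mkC p.ker v)).comp inr) with hβ
    have hβq : β.comp q = r.comp (mkC p.ker v) := by
      apply Monoid.Coprod.hom_ext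
      · ext e : 1
        exact hbp e
      · ext l : 1
        rfl
    have h2 : Subgroup.normalClosure (Set.range w) ≤ β.ker := by
      apply Subgroup.normalClosure_le_normal
      rintro _ ⟨i, rfl⟩
      have h3 := DFunLike.congr_fun hβq (v i)
      rw [MonoidHom.comp_apply, hv, MonoidHom.comp_apply, mkC_w, map_one] at h3
      exact h3
    have h3 : q x ∈ Subgroup.normalClosure (Set.range w) := (QuotientGroup.eq_one_iff _).1 hy
    have h4 : r (mkC p.ker v x) = 1 := (DFunLike.congr_fun hβq x).symm.trans (h2 h3)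
    obtain ⟨z, hz, h5⟩ := (QuotientGroup.eq_one_iff _).1 h4
    exact ⟨z, hz, h5.symm⟩

end Vale.Agent.N174B
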