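import Vale.Agent.N174B.Cent

/-!
# Second cohomology and homology of the group of a nonsingular system
-/

namespace Vale.Agent.N174B

open Vale.Agent.P174 Monoid.Coprod CategoryTheory

universe u

variable {m n : ℕ}

/-- The cocycle identity for the trivial action. -/
def IsCoc {G A : Type*} [Group G] [AddCommGroup A] (c : G × G → A) : Prop :=
  ∀ g h j, c (g * h, j) + c (g, h) = c (h, j) + c (g, h * j)

section

variable {G A : Type*} [Group G] [AddCommGroup A] {c : G × G → A}

theorem IsCoc.one_left (hc : IsCoc c) (g : G) : c (1, g) = c (1, 1) := by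
  have := hc 1 1 g
  simp only [one_mul] at this
  exact (add_left_cancel this).symm

theorem IsCoc.one_right (hc : IsCoc c) (g : G) : c (g, 1) = c (1, 1) := by
  have := hc g 1 1
  simp only [mul_one] at this
  exact add_right_cancel this

/-- The central extension given by a cocycle. -/
@[ext] structure CExt (hc : IsCoc c) where
  a : A
  g : G

namespace CExt

variable {hc : IsCoc c}

instance : Mul (CExt hc) := ⟨fun x y => ⟨x.a + y.a + c (x.g, y.g), x.g * y.g⟩⟩

instance : One (CExt hc) := ⟨⟨-c (1, 1), 1⟩⟩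

instance : Inv (CExt hc) := ⟨fun x => ⟨-x.a - c (x.g⁻¹, x.g) - c (1, 1), x.g⁻¹⟩⟩

theorem mul_a (x y : CExt hc) : (x * y).a = x.a + y.a + c (x.g, y.g) := rfl

theorem mul_g (x y : CExt hc) : (x * y).g = x.g * y.g := rfl

instance : Group (CExt hc) := Group.ofLeftAxioms
  (fun x y z => CExt.ext (by
      have := hc x.g y.g z.g
      simp only [mul_a, mul_g]
      linear_combination (norm := abel) this) (mul_assoc _ _ _))
  (fun x => CExt.ext (by
      change -c (1, 1) + x.a + c (1, x.g) = x.a
      rw [hc.one_left x.g]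
      abel) (one_mul _))
  (fun x => CExt.ext (by
      change -x.a - c (x.g⁻¹, x.g) - c (1, 1) + x.a + c (x.g⁻¹, x.g) = -c (1, 1)
      abel) (inv_mul_cancel _))

/-- The projection. -/
def pr (hc : IsCoc c) : CExt hc →* G where
  toFun x := x.g
  map_one' := rfl
  map_mul' _ _ := rfl

/-- The kernel. -/
def inc (hc : IsCoc c) : Multiplicative A →* CExt hc where
  toFun a := ⟨a.toAdd - c (1, 1), 1⟩
  map_one' := CExt.ext (zero_sub _) rfl
  map_mul' a b := CExt.ext (by
    change a.toAdd + b.toAdd - c (1, 1) = a.toAdd - c (1, 1) + (b.toAdd - c (1, 1)) + c (1, 1)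
    abel) (one_mul _).symm

theorem central {z : CExt hc} (hz : z ∈ (pr hc).ker) (x : CExt hc) : z * x = x * z := by
  have h1 : z.g = 1 := hz
  refine CExt.ext ?_ ?_
  · rw [mul_a, mul_a, h1, hc.one_left x.g, hc.one_right x.g, add_comm z.a]
  · rw [mul_g, mul_g, h1, one_mul, mul_one]

end CExt

end

/-- **Cocycles extend to the group of the system.** -/
theorem coc_ext {G : Type u} [Group G] {A : Type*} [AddCommGroup A] {c : G × G → A}
    (hc : IsCoc c) (w : Fin m → FP G n) (hw : rankQ (expMat w) = m) :
    ∃ d : Univ w × Univ w → A, IsCoc d ∧ ∀ g h, d (can w g, can w h) = c (g, h) := by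
  classical
  obtain ⟨v, P, hPs, hji, hP, hker⟩ := central_ext (CExt.pr hc) (fun g => ⟨⟨0, g⟩, rfl⟩)
    (fun z hz => CExt.central hz) w hw
  set j := (mkC (CExt.pr hc).ker v).comp inl with hj
  set ζ := j.comp (CExt.inc hc) with hζ
  have hζi : Function.Injective ζ := by
    intro a b hab
    have h1 := congrArg CExt.a (hji hab)
    exact Multiplicative.toAdd.injective (sub_left_injective h1)
  have hζc : ∀ a y, ζ a * y = y * ζ a := fun a y =>
    mkC_central (fun z hz => CExt.central hz) (z := CExt.inc hc a) rfl y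
  have hζk : ∀ y, P y = 1 → ∃ a : A, ζ (Multiplicative.ofAdd a) = y := by
    intro y hy
    obtain ⟨z, hz, rfl⟩ := hker y hy
    refine ⟨z.a + c (1, 1), congrArg j (CExt.ext ?_ (Eq.symm hz))⟩
    exact add_sub_cancel_right _ _
  obtain ⟨s, hs1, hs2⟩ : ∃ s : Univ w → UnivC (CExt.pr hc).ker v, (∀ x, P (s x) = x) ∧
      ∀ g, s (can w g) = j ⟨0, g⟩ := by
    refine ⟨fun x => if h : ∃ g, can w g = x then j ⟨0, h.choose⟩ else (hPs x).choose,
      fun x => ?_, fun g => ?_⟩
    · by_cases h : ∃ g, can w g = x
      · simp only [dif_pos h]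
        exact (hP _).trans h.choose_spec
      · simp only [dif_neg h]
        exact (hPs x).choose_spec
    · have h : ∃ g', can w g' = can w g := ⟨g, rfl⟩
      simp only [dif_pos h]
      rw [can_inj hw h.choose_spec]
  choose d hd using fun x : Univ w × Univ w => hζk (s x.1 * s x.2 * (s (x.1 * x.2))⁻¹) (by
    rw [map_mul, map_mul, map_inv, hs1, hs1, hs1, mul_inv_cancel])
  have hd' : ∀ x y, s x * s y = ζ (Multiplicative.ofAdd (d (x, y))) * s (x * y) := by
    intro x y
    rw [hd, inv_mul_cancel_right]
  refine ⟨d, fun x y z => ?_, fun g h => ?_⟩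
  · apply Multiplicative.ofAdd.injective
    apply hζi
    apply mul_right_cancel (b := s (x * y * z))
    rw [add_comm, ofAdd_add, ofAdd_add, map_mul, map_mul, mul_assoc, ← hd', ← mul_assoc, ← hd',
      mul_assoc (ζ _), mul_assoc x, ← hd', ← mul_assoc, hζc, mul_assoc (s x), mul_assoc (s x),
      ← hd']
  · apply Multiplicative.ofAdd.injective
    apply hζi
    apply mul_right_cancel (b := s (can w g * can w h))
    rw [← hd', ← map_mul, hs2, hs2, hs2]
    change j _ * j _ = j (CExt.inc hc _) * j _
    rw [← map_mul, ← map_mul]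
    congr 1
    refine CExt.ext ?_ (one_mul _).symm
    change 0 + 0 + c (g, h) = c (g, h) - c (1, 1) + 0 + c (1, g * h)
    rw [hc.one_left (g * h)]
    abel

/-- The boundary of an elementary chain for the trivial action. -/
noncomputable def bd {G A : Type*} [Group G] [AddCommGroup A] (p : G × G × G) (a : A) :
    G × G →₀ A :=
  Finsupp.single (p.2.1, p.2.2) a - Finsupp.single (p.1 * p.2.1, p.2.2) a +
    Finsupp.single (p.1, p.2.1 * p.2.2) a - Finsupp.single (p.1, p.2.1) a

theorem chain_ext {G : Type u} [Group G] {A : Type*} [AddCommGroup A] (w : Fin m → FP G n)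
    (hw : rankQ (expMat w) = m) (B : AddSubgroup (G × G →₀ A)) (hB : ∀ p a, bd p a ∈ B)
    (f : (G × G →₀ A) →+ (Univ w × Univ w →₀ A))
    (hf : ∀ p a, f (Finsupp.single p a) = Finsupp.single (can w p.1, can w p.2) a)
    (e : (Univ w × Univ w × Univ w →₀ A) →+ (Univ w × Univ w →₀ A))
    (he : ∀ p a, e (Finsupp.single p a) = bd p a) {x : G × G →₀ A}
    {y : Univ w × Univ w × Univ w →₀ A} (hy : e y = f x) : x ∈ B := by
  by_contra hne
  obtain ⟨χ, hχ⟩ := CharacterModule.exists_character_apply_ne_zero_of_ne_zero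
    (a := QuotientAddGroup.mk' B x) (fun h => hne ((QuotientAddGroup.eq_zero_iff x).1 h))
  set χ0 : (G × G →₀ A) →+ AddCircle (1 : ℚ) :=
    AddMonoidHom.comp χ (QuotientAddGroup.mk' B) with hχ0
  obtain ⟨d, h1, h2⟩ := coc_ext (A := A →+ AddCircle (1 : ℚ))
    (c := fun p => χ0.comp (Finsupp.singleAddHom p)) (fun g h j => by
      ext a
      have h3 : χ0 (bd (g, h, j) a) = 0 :=
        (congrArg χ ((QuotientAddGroup.eq_zero_iff _).2 (hB (g, h, j) a))).trans (map_zero χ)
      rw [bd, map_sub, map_add, map_sub] at h3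
      change χ0 (Finsupp.single _ a) + χ0 (Finsupp.single _ a) =
        χ0 (Finsupp.single _ a) + χ0 (Finsupp.single _ a)
      linear_combination (norm := abel) -h3) w hw
  set χ1 : (Univ w × Univ w →₀ A) →+ AddCircle (1 : ℚ) := Finsupp.liftAddHom d with hχ1
  have e1 : ∀ p a, χ1 (Finsupp.single p a) = d p a := fun p a =>
    Finsupp.liftAddHom_apply_single d p a
  have e2 : χ1.comp f = χ0 := by
    refine Finsupp.addHom_ext fun p a => ?_
    rw [AddMonoidHom.comp_apply, hf, e1, h2]
    rfl
  have e3 : χ1.comp e = 0 := by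
    refine Finsupp.addHom_ext fun p a => ?_
    have h3 := DFunLike.congr_fun (h1 p.1 p.2.1 p.2.2) a
    rw [AddMonoidHom.add_apply, AddMonoidHom.add_apply] at h3
    rw [AddMonoidHom.comp_apply, he, bd, map_sub, map_add, map_sub, e1, e1, e1, e1,
      AddMonoidHom.zero_apply]
    linear_combination (norm := abel) -h3
  exact hχ ((DFunLike.congr_fun e2 x).symm.trans
    ((congrArg χ1 hy.symm).trans (DFunLike.congr_fun e3 y)))

variable {G : Type u} [Group G] (k : Type u) [CommRing k] (A : Type u) [AddCommGroup A]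
  [Module k A]

/-- Restriction in second cohomology is onto. -/
theorem H2_surj (w : Fin m → FP G n) (hw : rankQ (expMat w) = m) :
    Function.Surjective
      (groupCohomology.map (can w) (𝟙 (Rep.res (can w) (Rep.trivial k (Univ w) A))) 2) := by
  intro x
  induction x using groupCohomology.H2_induction_on with
  | h x =>
    obtain ⟨d, h1, h2⟩ := coc_ext (A := A) (c := fun p => x p)
      (fun g h j => (groupCohomology.mem_cocycles₂_iff _).1 x.2 g h j) w hw
    refine ⟨groupCohomology.H2π _ ⟨d, (groupCohomology.mem_cocycles₂_iff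
      (A := Rep.trivial k (Univ w) A) d).2 h1⟩, ?_⟩
    rw [groupCohomology.H2π_comp_map_apply]
    congr 1
    exact groupCohomology.cocycles₂_ext fun g h => h2 g h

/-- The map in second homology is injective. -/
theorem H2_inj (w : Fin m → FP G n) (hw : rankQ (expMat w) = m) :
    Function.Injective
      (groupHomology.map (can w) (𝟙 (Rep.res (can w) (Rep.trivial k (Univ w) A))) 2) := by
  rw [injective_iff_map_eq_zero]
  intro x
  induction x using groupHomology.H2_induction_on with
  | h x =>
    intro hx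
    rw [groupHomology.H2π_comp_map_apply, groupHomology.H2π_eq_zero_iff] at hx
    rw [groupHomology.H2π_eq_zero_iff]
    obtain ⟨y, hy⟩ := hx
    refine chain_ext (A := A) w hw
      (groupHomology.boundaries₂ (Rep.res (can w) (Rep.trivial k (Univ w) A))).toAddSubgroup
      (fun p a => ⟨Finsupp.single p a, groupHomology.d₃₂_single
        (A := Rep.res (can w) (Rep.trivial k (Univ w) A)) p a⟩)
      (groupHomology.chainsMap₂ (can w)
        (𝟙 (Rep.res (can w) (Rep.trivial k (Univ w) A)))).hom.toAddMonoidHom (fun p a => ?_)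
      (groupHomology.d₃₂ (Rep.trivial k (Univ w) A)).hom.toAddMonoidHom
      (fun p a => groupHomology.d₃₂_single (A := Rep.trivial k (Univ w) A) p a) hy
    simp [groupHomology.chainsMap₂, Prod.map]

end Vale.Agent.N174B
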