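import Vale.Agent.N174B.Cent

/-!
# The rank condition is sharp; the Freiheitssatz
-/

namespace Vale.Agent.N174B

open Vale.Agent.P174 Monoid.Coprod

universe u

variable {m n : ℕ} {G : Type u} [Group G]

theorem solvable {w : Fin m → FP G n} (hw : rankQ (expMat w) = m) :
    ∃ (H : Type u) (_ : Group H) (ι : G →* H) (h : Fin n → H), Function.Injective ι ∧
      Solves ι h w :=
  H49.solvable_of_inj fun _ hg => howie_inj w ((fullRank_iff w).1 hw) hg

theorem expo_inl (j : Fin n) (g : G) : expo j (inl g : FP G n) = 1 := by
  simp [expo]

theorem expo_of (j l : Fin n) : expo j (inr (FreeGroup.of l) : FP G n) =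
    Multiplicative.ofAdd (if j = l then 1 else 0) := by
  simp [expo]

theorem exists_row (r : Fin n → ℤ) : ∃ v : FP G n, ∀ j, Multiplicative.toAdd (expo j v) = r j := by
  refine ⟨(List.ofFn fun l => (inr (FreeGroup.of l) : FP G n) ^ r l).prod, fun j => ?_⟩
  rw [map_list_prod, List.map_ofFn, List.prod_ofFn, toAdd_prod]
  simp [expo_of]

/-- A system with dependent exponent rows that kills a given coefficient. -/
theorem exists_kill (g : G) : ∀ (N : ℕ) (c : Fin m → ℤ), ∑ i, (c i).natAbs = N → c ≠ 0 →
    ∀ M : Matrix (Fin m) (Fin n) ℤ, (∀ j, ∑ i, c i * M i j = 0) →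
      ∃ w : Fin m → FP G n, expMat w = M ∧ inl g ∈ Subgroup.normalClosure (Set.range w) := by
  intro N
  induction N using Nat.strong_induction_on with
  | _ N ih =>
    intro c hN hc M hM
    by_cases h2 : ∃ a b, a ≠ b ∧ c b ≠ 0 ∧ (c b).natAbs ≤ (c a).natAbs
    · obtain ⟨a, b, hab, hb, hle⟩ := h2
      obtain ⟨s, hs⟩ : ∃ s : ℤ, (c a - s * c b).natAbs < (c a).natAbs := by
        by_cases h : (c a - c b).natAbs < (c a).natAbs
        · exact ⟨1, by rwa [one_mul]⟩
        · exact ⟨-1, by omega⟩
      set c' := Function.update c a (c a - s * c b) with hc'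
      set M' : Matrix (Fin m) (Fin n) ℤ := M.updateRow b (M b + s • M a) with hM'
      have hlt : ∑ i, (c' i).natAbs < N := by
        rw [← hN]
        refine Finset.sum_lt_sum (fun i _ => ?_) ⟨a, Finset.mem_univ _, ?_⟩
        · by_cases hi : i = a
          · rw [hi, hc', Function.update_self]
            exact hs.le
          · rw [hc', Function.update_of_ne hi]
        · rw [hc', Function.update_self]
          exact hs
      have hne : c' ≠ 0 := by
        intro h
        have := congrFun h b
        rw [hc', Function.update_of_ne hab.symm] at this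
        exact hb this
      have hsum : ∀ j, ∑ i, c' i * M' i j = 0 := by
        intro j
        have e : ∀ i, c' i * M' i j = c i * M i j + (if i = a then -(s * c b * M a j) else 0) +
            (if i = b then s * c b * M a j else 0) := by
          intro i
          by_cases hi : i = a
          · subst hi
            rw [hc', hM', Function.update_self, Matrix.updateRow_ne hab, if_pos rfl, if_neg hab]
            ring
          · by_cases hi' : i = b
            · subst hi'
              rw [hc', hM', Function.update_of_ne hi, Matrix.updateRow_self, if_neg hi, if_pos rfl,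
                Pi.add_apply, Pi.smul_apply, smul_eq_mul]
              ring
            · rw [hc', hM', Function.update_of_ne hi, Matrix.updateRow_ne hi', if_neg hi,
                if_neg hi']
              ring
        simp only [e, Finset.sum_add_distrib, hM j, Finset.sum_ite_eq', Finset.mem_univ, if_true]
        ring
      obtain ⟨w', h1, h3⟩ := ih _ hlt c' rfl hne M' hsum
      refine ⟨Function.update w' b (w' b * w' a ^ (-s)), ?_, ?_⟩
      · ext i j
        have h4 : ∀ i, Multiplicative.toAdd (expo j (w' i)) = M' i j := fun i =>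
          congrFun (congrFun h1 i) j
        rw [expMat, Matrix.of_apply]
        by_cases hi : i = b
        · subst hi
          rw [Function.update_self, map_mul, map_zpow, toAdd_mul, toAdd_zpow, h4, h4, hM',
            Matrix.updateRow_self, Matrix.updateRow_ne hab, Pi.add_apply, Pi.smul_apply,
            smul_eq_mul, smul_eq_mul]
          ring
        · rw [Function.update_of_ne hi, h4, hM', Matrix.updateRow_ne hi]
      · refine Subgroup.normalClosure_le_normal ?_ h3
        have h5 : ∀ i, Function.update w' b (w' b * w' a ^ (-s)) i ∈ Subgroup.normalClosure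
            (Set.range (Function.update w' b (w' b * w' a ^ (-s)))) := fun i =>
          Subgroup.subset_normalClosure ⟨i, rfl⟩
        rintro _ ⟨i, rfl⟩
        by_cases hi : i = b
        · subst hi
          have h6 := h5 i
          have h7 := h5 a
          rw [Function.update_self] at h6
          rw [Function.update_of_ne hab] at h7
          have h8 := Subgroup.mul_mem _ h6 (Subgroup.zpow_mem _ h7 s)
          rwa [mul_assoc, ← zpow_add, neg_add_cancel, zpow_zero, mul_one] at h8
        · have h6 := h5 i
          rwa [Function.update_of_ne hi] at h6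
    · obtain ⟨a, ha⟩ := Function.ne_iff.1 hc
      have h3 : ∀ b, b ≠ a → c b = 0 := by
        intro b hb
        by_contra h
        rcases le_total (c b).natAbs (c a).natAbs with h4 | h4
        · exact h2 ⟨a, b, hb.symm, h, h4⟩
        · exact h2 ⟨b, a, hb, ha, h4⟩
      have h4 : ∀ j, M a j = 0 := by
        intro j
        have h5 := hM j
        rw [Finset.sum_eq_single a (fun b _ hb => by rw [h3 b hb, zero_mul])
          (fun h => absurd (Finset.mem_univ _) h)] at h5
        exact (mul_eq_zero.1 h5).resolve_left ha
      choose v hv using fun i => exists_row (G := G) (M i)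
      refine ⟨Function.update v a (inl g), ?_,
        Subgroup.subset_normalClosure ⟨a, Function.update_self _ _ _⟩⟩
      ext i j
      rw [expMat, Matrix.of_apply]
      by_cases hi : i = a
      · rw [hi, Function.update_self, expo_inl, h4]
        rfl
      · rw [Function.update_of_ne hi, hv]

/-- **The rank condition is sharp.** -/
theorem sharp [Nontrivial G] (M : Matrix (Fin m) (Fin n) ℤ) (hM : rankQ M ≠ m) :
    ∃ w : Fin m → FP G n, expMat w = M ∧ ¬ Function.Injective (can w) := by
  obtain ⟨g, hg⟩ := exists_ne (1 : G)
  have h1 : ¬ LinearIndependent ℤ (M.map fun a : ℤ => (a : ℚ)).row := by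
    rw [LinearIndependent.iff_fractionRing ℤ ℚ]
    intro h
    apply hM
    rw [rankQ, Matrix.rank_eq_finrank_span_row, ← Set.finrank,
      ← linearIndependent_iff_card_eq_finrank_span.1 h, Fintype.card_fin]
  obtain ⟨c, h2, i, hi⟩ := Fintype.not_linearIndependent_iff.1 h1
  obtain ⟨w, h3, h4⟩ := exists_kill g _ c rfl (fun h => hi (congrFun h i)) M (fun j => by
    have h5 := congrFun h2 j
    rw [Finset.sum_apply] at h5
    have h6 : ∑ i, (c i : ℚ) * (M i j : ℚ) = 0 := by
      refine Eq.trans (Finset.sum_congr rfl fun i _ => ?_) h5
      rw [Pi.smul_apply, zsmul_eq_mul]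
      rfl
    exact_mod_cast h6)
  refine ⟨w, h3, fun h => hg (h ?_)⟩
  rw [map_one]
  exact (QuotientGroup.eq_one_iff _).2 h4

/-- **Freiheitssatz.** -/
theorem freiheit (w : Fin m → FP G n) (S : Finset (Fin n))
    (hS : rankQ ((expMat w).submatrix id (Subtype.val : S → Fin n)) = m) :
    Function.Injective ((QuotientGroup.mk' (Subgroup.normalClosure (Set.range w))).comp
      (Monoid.Coprod.map (MonoidHom.id G) (FreeGroup.map (Subtype.val : {j // j ∉ S} → Fin n)))) := by
  set K := Monoid.Coprod G (FreeGroup {j // j ∉ S})
  set Φ : FP G n →* FP K n := Monoid.Coprod.lift (inl.comp inl) (FreeGroup.lift fun j =>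
    if h : j ∈ S then inr (FreeGroup.of j) else inl (inr (FreeGroup.of ⟨j, h⟩))) with hΦ
  have h1 : Φ.comp (Monoid.Coprod.map (MonoidHom.id G)
      (FreeGroup.map (Subtype.val : {j // j ∉ S} → Fin n))) = inl := by
    apply Monoid.Coprod.hom_ext
    · ext g : 1
      rfl
    · ext j : 1
      simp [hΦ, j.2]
  have h2 : ∀ j ∈ S, (expo j).comp Φ = expo j := by
    intro j hj
    apply Monoid.Coprod.hom_ext
    · ext g : 1
      simp [hΦ, expo_inl]
    · ext l : 1
      by_cases hl : l ∈ S
      · simp [hΦ, hl, expo_of]
      · have : j ≠ l := fun h => hl (h ▸ hj)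
        simp [hΦ, hl, expo_of, expo_inl, this]
  have h3 : rankQ (expMat fun i => Φ (w i)) = m := by
    apply le_antisymm (Matrix.rank_le_height _)
    have h4 : ((expMat w).submatrix id (Subtype.val : S → Fin n)).map (fun a : ℤ => (a : ℚ)) =
        ((expMat fun i => Φ (w i)).map fun a : ℤ => (a : ℚ)).submatrix id
          (Subtype.val : S → Fin n) := by
      ext i j
      have h5 := DFunLike.congr_fun (h2 j j.2) (w i)
      simp only [Matrix.map_apply, Matrix.submatrix_apply, expMat, Matrix.of_apply, id]
      rw [← h5]
      rfl
    rw [rankQ, h4] at hS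
    exact hS.symm.le.trans (Matrix.rank_submatrix_le _ _ _)
  rw [injective_iff_map_eq_one]
  intro a ha
  have h4 := Subgroup.map_normalClosure_le (Set.range w) Φ
    ⟨_, (QuotientGroup.eq_one_iff _).1 ha, rfl⟩
  rw [← Set.range_comp, ← MonoidHom.comp_apply, h1] at h4
  exact howie_inj _ ((fullRank_iff _).1 h3) h4

end Vale.Agent.N174B
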