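import Vale.Agent.P174.H834.Reduce

set_option linter.all false

/-!
# Reduction of the long word when a central subgroup of the labels commutes with the letters
-/

namespace Vale.Agent.N174B

open Equiv Vale.Agent.P174.H834 Vale.Agent.P174.H834.Mn

variable {D H Γ : Type*} [DecidableEq D] [Group H] [Group Γ] {n : ℕ}

/-- Value of an optional letter. -/
def lo2 (lt : Let n → Γ) (y : Option (Let n)) : Γ :=
  match y with
  | none => 1
  | some y => lt y

/-- Value of a list of darts. -/
def ev2 (π : H →* Γ) (lt : Let n → Γ) (lam : D → Option (Let n)) (c : D → H) (L : List D) : Γ :=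
  (L.map fun d => lo2 lt (lam d) * π (c d)).prod

theorem ev2_append (π : H →* Γ) (lt : Let n → Γ) (lam : D → Option (Let n)) (c : D → H)
    (L L' : List D) : ev2 π lt lam c (L ++ L') = ev2 π lt lam c L * ev2 π lt lam c L' := by
  simp [ev2]

theorem ev2_cons (π : H →* Γ) (lt : Let n → Γ) (lam : D → Option (Let n)) (c : D → H) (d : D)
    (L : List D) :
    ev2 π lt lam c (d :: L) = lo2 lt (lam d) * π (c d) * ev2 π lt lam c L := by
  simp [ev2]

theorem ev2_congr (π : H →* Γ) (lt : Let n → Γ) (lam : D → Option (Let n)) {c c' : D → H}
    {L : List D} (h : ∀ d ∈ L, c d = c' d) : ev2 π lt lam c L = ev2 π lt lam c' L := by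
  unfold ev2
  congr 1
  apply List.map_congr_left
  intro d hd
  rw [h d hd]

/-- Matching of the letters of `L`, with antisymmetric labels in `C`. -/
structure Match2 (C : Subgroup H) (lam : D → Option (Let n)) (L : List D) (ι : Perm D)
    (θ : D → H) : Prop where
  inv : ∀ d, ι (ι d) = d
  out : ∀ d, d ∉ L → ι d = d
  fixed : ∀ d, lam d = none → ι d = d
  letter : ∀ d ∈ L, ∀ y, lam d = some y → lam (ι d) = some (nv y)
  anti : ∀ d, θ (ι d) = (θ d)⁻¹
  θout : ∀ d, ι d = d → θ d = 1
  mem : ∀ d, θ d ∈ C

/-- The final diagonal element. -/
def Dl2 (m : D) (L : List D) (h e : H) : Mn D H :=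
  dg fun d => if d = m then h else if d ∈ L then e⁻¹ else 1

/-- The assumptions on the labels and the letters. -/
structure Setup (π : H →* Γ) (lt : Let n → Γ) (C : Subgroup H) (e : H) : Prop where
  lt_nv : ∀ y, lt (nv y) = (lt y)⁻¹
  cen : ∀ z ∈ C, ∀ x, z * x = x * z
  com : ∀ z ∈ C, ∀ y, lt y * π z = π z * lt y
  e_mem : e ∈ C
  e_val : π e = 1
  can : ∀ L : List (Let n × H), L ≠ [] → ∀ a g : H,
    π a * (L.map fun p => lt p.1 * π p.2).prod = π g →
      ∃ X Y y z d, z ∈ C ∧ L = X ++ (y, z) :: (nv y, d) :: Y

/-- **Reduction.** -/
theorem reduce2 {π : H →* Γ} {lt : Let n → Γ} {C : Subgroup H} {e : H} (S : Setup π lt C e)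
    (lam : D → Option (Let n)) (m : D) (hm : lam m = none) (g : H) :
    ∀ (N : ℕ) (L : List D), L.length = N → (m :: L).Nodup → ∀ c : D → H,
      ev2 π lt lam c (m :: L) = π g →
      ∃ (ι : Perm D) (θ : D → H) (k : H) (Rs : List (Mn D H)),
        Match2 C lam L ι θ ∧ π k = π g ∧ (∀ R ∈ Rs, IsSw R) ∧
        2 * Rs.length = L.length + (L.filter fun d => (lam d).isNone).length ∧
        Rs.prod * (rot c (m :: L) * Im ι θ) = Dl2 m L k e := by
  intro N
  induction N using Nat.strong_induction_on with
  | _ N ih =>
    intro L hLN hn c hev
    by_cases hL : L = []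
    · subst hL
      have h1 : π (c m) = π g := by
        rw [ev2_cons, hm] at hev
        simpa only [lo2, ev2, List.map_nil, List.prod_nil, one_mul, mul_one] using hev
      refine ⟨1, fun _ => 1, c m, [], ⟨fun d => rfl, fun d _ => rfl, fun d _ => rfl,
        by simp, fun d => by simp, fun d _ => rfl, fun d => C.one_mem⟩, h1, by simp, by simp, ?_⟩
      refine ext' (fun d => ?_) (fun d => ?_)
      · simp [Dl2, mul_σ, rot_σ, Im_σ, dg_σ, one_σ]
      · simp only [List.prod_nil, one_mul, Dl2, mul_c, rot_c, Im_c, dg_c, List.mem_singleton,
          List.not_mem_nil, if_false]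
        split_ifs with h2
        · subst h2
          simp
        · simp
    · by_cases hex : ∃ d ∈ L, lam d = none
      · -- a dart without letter
        obtain ⟨d, hdL, hd⟩ := hex
        obtain ⟨X, Y, rfl⟩ := List.append_of_mem hdL
        obtain ⟨Z, a, hZ⟩ : ∃ Z a, m :: X = Z ++ [a] :=
          ⟨(m :: X).dropLast, (m :: X).getLast (by simp),
            (List.dropLast_append_getLast (by simp)).symm⟩
        have e1 : m :: (X ++ d :: Y) = Z ++ [a] ++ [d] ++ Y := by
          rw [← hZ]; simp
        have e2 : m :: (X ++ Y) = Z ++ [a] ++ Y := by rw [← hZ]; simp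
        have hr1 : m :: (X ++ d :: Y) ~r Y ++ Z ++ [a] ++ [d] := by
          rw [e1, show Y ++ Z ++ [a] ++ [d] = Y ++ (Z ++ [a] ++ [d]) by simp]
          exact List.isRotated_append
        have hr2 : m :: (X ++ Y) ~r Y ++ Z ++ [a] := by
          rw [e2, show Y ++ Z ++ [a] = Y ++ (Z ++ [a]) by simp]
          exact List.isRotated_append
        have hn1 : (Y ++ Z ++ [a] ++ [d]).Nodup := hr1.nodup_iff.1 hn
        have hn2 : (m :: (X ++ Y)).Nodup := by
          rw [hr2.nodup_iff]
          exact (List.nodup_append.1 hn1).1
        have hdm : d ≠ m := by
          intro h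
          have := (List.nodup_cons.1 hn).1
          exact this (by simp [h])
        have hdn : d ∉ m :: (X ++ Y) := by
          rw [hr2.mem_iff]
          intro h
          exact (List.nodup_append.1 hn1).2.2 d h d (by simp) rfl
        set c' : D → H := Function.update c a (c a * e * c d) with hc'
        have had : a ≠ d := by
          intro h
          exact (List.nodup_append.1 hn1).2.2 a (by simp) d (by simp) h
        have hev' : ev2 π lt lam c' (m :: (X ++ Y)) = π g := by
          rw [← hev, e1, e2, ev2_append, ev2_append, ev2_append, ev2_append, ev2_append]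
          have hna : a ∉ Z := by
            rw [e2] at hn2
            intro h
            exact (List.nodup_append.1 (List.nodup_append.1 hn2).1).2.2 a h a (by simp) rfl
          have hnaY : a ∉ Y := by
            rw [e2] at hn2
            intro h
            exact (List.nodup_append.1 hn2).2.2 a (by simp) a h rfl
          rw [ev2_congr π lt lam (c := c') (c' := c) (L := Z) (fun x hx => by
              rw [hc', Function.update_of_ne]; rintro rfl; exact hna hx),
            ev2_congr π lt lam (c := c') (c' := c) (L := Y) (fun x hx => by
              rw [hc', Function.update_of_ne]; rintro rfl; exact hnaY hx)]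
          have h3 : ev2 π lt lam c' [a] = ev2 π lt lam c [a] * ev2 π lt lam c [d] := by
            rw [ev2_cons, ev2_cons, ev2_cons, hd, hc', Function.update_self]
            simp [ev2, lo2, S.e_val, mul_assoc]
          rw [h3]
          simp only [mul_assoc]
        have hlen : (X ++ Y).length < N := by
          rw [← hLN]; simp
        obtain ⟨ι, θ, k, Rs, hM, hk, hRs, hcount, hprod⟩ :=
          ih _ hlen (X ++ Y) rfl hn2 c' hev'
        have hdXY : d ∉ X ++ Y := fun h => hdn (List.mem_cons_of_mem _ h)
        have hιd : ι d = d := hM.out d hdXY
        refine ⟨ι, θ, k, Rs ++ [sw a d (c a * e)], ⟨hM.inv, fun x hx => hM.out x ?_, hM.fixed,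
          fun x hx y hy => ?_, hM.anti, hM.θout, hM.mem⟩, hk, ?_, ?_, ?_⟩
        · simp only [List.mem_append, List.mem_cons] at hx ⊢; tauto
        · have hx' : x ∈ X ++ Y := by
            simp only [List.mem_append, List.mem_cons] at hx ⊢
            rcases hx with h | h | h
            · exact Or.inl h
            · subst h; rw [hd] at hy; cases hy
            · exact Or.inr h
          exact hM.letter x hx' y hy
        · intro R hR
          rcases List.mem_append.1 hR with h | h
          · exact hRs R h
          · rw [List.mem_singleton] at h
            exact ⟨a, d, _, had, h⟩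
        · rw [List.length_append, List.length_singleton, mul_add, hcount, List.filter_append,
            List.filter_append, List.filter_cons_of_pos (by simp [hd])]
          simp only [List.length_append, List.length_cons]
          omega
        · have hcen : ∀ x : H, e * x = x * e := S.cen e S.e_mem
          have h4 := del1 c hn1 hcen
          rw [← hc', ← rot_rotated c hr1 hn, ← rot_rotated c' hr2 hn2] at h4
          have h5 : (dg fun x => if x = d then e⁻¹ else 1) * Im ι θ =
              Im ι θ * dg fun x => if x = d then e⁻¹ else 1 := by
            rw [Im_mul_dg]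
            · intro x
              have : (ι x = d) ↔ (x = d) :=
                ⟨fun h => by rw [← hM.inv x, h, hιd], fun h => by rw [h, hιd]⟩
              simp only [this]
            · intro x; exact S.cen _ (hM.mem x)
          rw [List.prod_append, List.prod_singleton, mul_assoc,
            ← mul_assoc (sw a d (c a * e)), h4, mul_assoc, h5, ← mul_assoc (rot c' _),
            ← mul_assoc, hprod, Dl2, Dl2, dg_mul_dg]
          refine ext' (fun x => rfl) (fun x => ?_)
          simp only [dg_c]
          by_cases h6 : x = m
          · subst h6
            rw [if_pos rfl, if_pos rfl, if_neg (Ne.symm hdm), mul_one]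
          · by_cases h7 : x = d
            · subst h7
              rw [if_neg h6, if_neg hdXY, if_pos rfl, one_mul, if_neg h6,
                if_pos (by simp)]
            · rw [if_neg h6, if_neg h6, if_neg h7, mul_one]
              have : x ∈ X ++ d :: Y ↔ x ∈ X ++ Y := by
                simp only [List.mem_append, List.mem_cons]; tauto
              simp only [this]
      · -- all darts carry letters
        push Not at hex
        have hlet : ∀ d ∈ L, ∃ y, lam d = some y := by
          intro d hd
          exact Option.ne_none_iff_exists'.1 (hex d hd)
        set f : D → Let n × H := fun d => ((lam d).getD (⟨0, by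
          rcases n with _ | n
          · exfalso
            obtain ⟨d, hd⟩ := List.exists_mem_of_ne_nil L hL
            obtain ⟨y, _⟩ := hlet d hd
            exact y.1.elim0
          · exact Nat.succ_pos n⟩, true), c d) with hf
        have hwv : ∀ L' : List D, (∀ d ∈ L', ∃ y, lam d = some y) →
            ev2 π lt lam c L' = ((L'.map f).map fun p => lt p.1 * π p.2).prod := by
          intro L' hL'
          unfold ev2
          rw [List.map_map]
          congr 1
          apply List.map_congr_left
          intro d hd
          obtain ⟨y, hy⟩ := hL' d hd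
          simp only [hf, Function.comp_apply, hy, Option.getD_some, lo2]
        have h1 : π (c m) * ((L.map f).map fun p => lt p.1 * π p.2).prod = π g := by
          rw [← hev, ev2_cons, hm, hwv L hlet]
          simp [lo2]
        obtain ⟨X', Y', y, z0, d0, hz0, hXY⟩ := S.can _ (by simpa using hL) _ _ h1
        obtain ⟨X, L1, hX, hX', hL1⟩ := List.map_eq_append_iff.1 hXY
        obtain ⟨u, L2, rfl, hu, hL2⟩ := List.map_eq_cons_iff.1 hL1
        obtain ⟨v, Y, rfl, hv, hY⟩ := List.map_eq_cons_iff.1 hL2
        subst hX
        obtain ⟨yu, hyu⟩ := hlet u (by simp)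
        obtain ⟨yv, hyv⟩ := hlet v (by simp)
        have hu1 : yu = y ∧ c u ∈ C := by
          have := hu
          simp only [hf, hyu, Option.getD_some, Prod.mk.injEq] at this
          exact ⟨this.1, this.2 ▸ hz0⟩
        have hv1 : yv = nv y := by
          have := hv
          simp only [hf, hyv, Option.getD_some, Prod.mk.injEq] at this
          exact this.1
        obtain ⟨Z, a, hZ⟩ : ∃ Z a, m :: X = Z ++ [a] :=
          ⟨(m :: X).dropLast, (m :: X).getLast (by simp),
            (List.dropLast_append_getLast (by simp)).symm⟩
        have e1 : m :: (X ++ u :: v :: Y) = Z ++ [a] ++ [u] ++ [v] ++ Y := by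
          rw [← hZ]; simp
        have e2 : m :: (X ++ Y) = Z ++ [a] ++ Y := by rw [← hZ]; simp
        have hr1 : m :: (X ++ u :: v :: Y) ~r Y ++ Z ++ [a] ++ [u] ++ [v] := by
          rw [e1, show Y ++ Z ++ [a] ++ [u] ++ [v] = Y ++ (Z ++ [a] ++ [u] ++ [v]) by simp]
          exact List.isRotated_append
        have hr2 : m :: (X ++ Y) ~r Y ++ Z ++ [a] := by
          rw [e2, show Y ++ Z ++ [a] = Y ++ (Z ++ [a]) by simp]
          exact List.isRotated_append
        have hn1 : (Y ++ Z ++ [a] ++ [u] ++ [v]).Nodup := hr1.nodup_iff.1 hn
        have hn1' : (Y ++ Z ++ [a] ++ [u]).Nodup := (List.nodup_append.1 hn1).1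
        have hn2 : (m :: (X ++ Y)).Nodup := by
          rw [hr2.nodup_iff]
          exact (List.nodup_append.1 hn1').1
        have hvn : v ∉ Y ++ Z ++ [a] ++ [u] := fun h =>
          (List.nodup_append.1 hn1).2.2 v h v (by simp) rfl
        have hun : u ∉ Y ++ Z ++ [a] := fun h =>
          (List.nodup_append.1 hn1').2.2 u h u (by simp) rfl
        have huL : u ∉ m :: (X ++ Y) := by rw [hr2.mem_iff]; exact hun
        have hvL : v ∉ m :: (X ++ Y) := by
          rw [hr2.mem_iff]; exact fun h => hvn (List.mem_append_left _ h)
        have huv : u ≠ v := fun h => hvn (by simp [h])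
        have hav : a ≠ v := fun h => hvn (by simp [h])
        have hum : u ≠ m := fun h => huL (by simp [h])
        have hvm : v ≠ m := fun h => hvL (by simp [h])
        have huXY : u ∉ X ++ Y := fun h => huL (List.mem_cons_of_mem _ h)
        have hvXY : v ∉ X ++ Y := fun h => hvL (List.mem_cons_of_mem _ h)
        set c' : D → H := Function.update c a (c a * c u * e * e * c v) with hc'
        have hev' : ev2 π lt lam c' (m :: (X ++ Y)) = π g := by
          rw [← hev, e1, e2, ev2_append, ev2_append, ev2_append, ev2_append, ev2_append, ev2_append]
          have hna : a ∉ Z := by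
            rw [e2] at hn2
            intro h
            exact (List.nodup_append.1 (List.nodup_append.1 hn2).1).2.2 a h a (by simp) rfl
          have hnaY : a ∉ Y := by
            rw [e2] at hn2
            intro h
            exact (List.nodup_append.1 hn2).2.2 a (by simp) a h rfl
          rw [ev2_congr π lt lam (c := c') (c' := c) (L := Z) (fun x hx => by
              rw [hc', Function.update_of_ne]; rintro rfl; exact hna hx),
            ev2_congr π lt lam (c := c') (c' := c) (L := Y) (fun x hx => by
              rw [hc', Function.update_of_ne]; rintro rfl; exact hnaY hx)]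
          have h3 : ev2 π lt lam c' [a] =
              ev2 π lt lam c [a] * (ev2 π lt lam c [u] * ev2 π lt lam c [v]) := by
            rw [ev2_cons, ev2_cons, ev2_cons, ev2_cons, hyu, hyv, hc', Function.update_self, hu1.1,
              hv1]
            simp only [ev2, lo2, List.map_nil, List.prod_nil, mul_one, S.lt_nv, _root_.map_mul,
              S.e_val, S.com _ hu1.2]
            group
          rw [h3]
          simp only [mul_assoc]
        have hlen : (X ++ Y).length < N := by
          rw [← hLN]; simp only [List.length_append, List.length_cons]; omega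
        obtain ⟨ι, θ, k, Rs, hM, hk, hRs, hcount, hprod⟩ :=
          ih _ hlen (X ++ Y) rfl hn2 c' hev'
        have hιu : ι u = u := hM.out u huXY
        have hιv : ι v = v := hM.out v hvXY
        have hθu : θ u = 1 := hM.θout u hιu
        have hθv : θ v = 1 := hM.θout v hιv
        set θ' : D → H := fun x =>
          if x = u then c u * e else if x = v then (c u * e)⁻¹ else θ x with hθ'
        have hιne : ∀ x, x ≠ u → x ≠ v → ι x ≠ u ∧ ι x ≠ v := fun x h1 h2 =>
          ⟨fun h => h1 (ι.injective (h.trans hιu.symm)),
            fun h => h2 (ι.injective (h.trans hιv.symm))⟩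
        refine ⟨ι * swap u v, θ', k, Rs ++ [sw a v (c a * c u * e * e)],
          ⟨fun x => ?_, fun x hx => ?_, fun x hx => ?_, fun x hx z hz => ?_, fun x => ?_,
            fun x hx => ?_, fun x => ?_⟩, hk, ?_, ?_, ?_⟩
        · simp only [Perm.mul_apply]
          by_cases h1 : x = u
          · subst h1; rw [swap_apply_left, hιv, swap_apply_right, hιu]
          · by_cases h2 : x = v
            · subst h2; rw [swap_apply_right, hιu, swap_apply_left, hιv]
            · rw [swap_apply_of_ne_of_ne h1 h2,
                swap_apply_of_ne_of_ne (hιne x h1 h2).1 (hιne x h1 h2).2, hM.inv]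
        · have h1 : x ≠ u := fun h => hx (by simp [h])
          have h2 : x ≠ v := fun h => hx (by simp [h])
          rw [Perm.mul_apply, swap_apply_of_ne_of_ne h1 h2]
          apply hM.out
          simp only [List.mem_append, List.mem_cons] at hx ⊢; tauto
        · have h1 : x ≠ u := fun h => by rw [h, hyu] at hx; cases hx
          have h2 : x ≠ v := fun h => by rw [h, hyv] at hx; cases hx
          rw [Perm.mul_apply, swap_apply_of_ne_of_ne h1 h2]
          exact hM.fixed x hx
        · rw [Perm.mul_apply]
          by_cases h1 : x = u
          · subst h1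
            rw [swap_apply_left, hιv, hyv, hv1, ← hu1.1]
            rw [hyu] at hz
            rw [Option.some_injective _ hz]
          · by_cases h2 : x = v
            · subst h2
              rw [swap_apply_right, hιu, hyu, hu1.1]
              rw [hyv, hv1] at hz
              rw [← Option.some_injective _ hz, nv_nv]
            · rw [swap_apply_of_ne_of_ne h1 h2]
              refine hM.letter x ?_ z hz
              simp only [List.mem_append, List.mem_cons] at hx ⊢; tauto
        · rw [Perm.mul_apply]
          by_cases h1 : x = u
          · subst h1
            rw [swap_apply_left, hιv]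
            simp only [hθ', if_neg (Ne.symm huv), if_pos]
          · by_cases h2 : x = v
            · subst h2
              rw [swap_apply_right, hιu]
              simp only [hθ', if_neg (Ne.symm huv), if_pos, inv_inv]
            · rw [swap_apply_of_ne_of_ne h1 h2]
              simp only [hθ', if_neg (hιne x h1 h2).1, if_neg (hιne x h1 h2).2, if_neg h1,
                if_neg h2, hM.anti]
        · rw [Perm.mul_apply] at hx
          by_cases h1 : x = u
          · subst h1; rw [swap_apply_left, hιv] at hx; exact absurd hx.symm huv
          · by_cases h2 : x = v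
            · subst h2; rw [swap_apply_right, hιu] at hx; exact absurd hx huv
            · rw [swap_apply_of_ne_of_ne h1 h2] at hx
              simp only [hθ', if_neg h1, if_neg h2]
              exact hM.θout x hx
        · simp only [hθ']
          split_ifs
          · exact C.mul_mem hu1.2 S.e_mem
          · exact C.inv_mem (C.mul_mem hu1.2 S.e_mem)
          · exact hM.mem x
        · intro R hR
          rcases List.mem_append.1 hR with h | h
          · exact hRs R h
          · rw [List.mem_singleton] at h
            exact ⟨a, v, _, hav, h⟩
        · rw [List.length_append, List.length_singleton, mul_add, hcount, List.filter_append,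
            List.filter_append, List.filter_cons_of_neg (by simp [hyu]),
            List.filter_cons_of_neg (by simp [hyv])]
          simp only [List.length_append, List.length_cons]
          omega
        · have hcen : ∀ x : H, e * x = x * e := S.cen e S.e_mem
          have hcu : ∀ x : H, c u * x = x * c u := S.cen _ hu1.2
          have h4 := del2 c hn1 hcen hcu ι θ hιu hιv hθu hθv
          rw [← hθ', ← hc', ← rot_rotated c hr1 hn, ← rot_rotated c' hr2 hn2] at h4
          rw [List.prod_append, List.prod_singleton, mul_assoc, h4, ← mul_assoc (rot c' _),
            ← mul_assoc, hprod, Dl2, Dl2, dg_mul_dg]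
          refine ext' (fun x => rfl) (fun x => ?_)
          simp only [dg_c]
          by_cases h6 : x = m
          · subst h6
            rw [if_pos rfl, if_pos rfl, if_neg (by tauto), mul_one]
          · by_cases h7 : x = u ∨ x = v
            · have h8 : x ∉ X ++ Y := by
                rcases h7 with h | h
                · rw [h]; exact huXY
                · rw [h]; exact hvXY
              rw [if_neg h6, if_neg h8, if_pos h7, one_mul, if_neg h6, if_pos (by
                rcases h7 with h | h <;> simp [h])]
            · rw [if_neg h6, if_neg h6, if_neg h7, mul_one]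
              have : x ∈ X ++ u :: v :: Y ↔ x ∈ X ++ Y := by
                simp only [List.mem_append, List.mem_cons]; tauto
              simp only [this]

end Vale.Agent.N174B
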