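import Vale.Agent.N174B.Tw
import Vale.Agent.N174B.Red

/-!
# The core inequality for a twisted trace, and the assembly
-/

namespace Vale.Agent.N174B

open Complex Finset Filter Topology MonoidAlgebra Vale.Agent.P174.H717
open Vale.Agent.P174.H834 (Mn IsSw Im HH ee)
open Vale.Agent.P174.H834.Mn (mat mat_apply mat_mul mat_one sw dg)

variable {D : Type*} [Fintype D] [DecidableEq D]

/-- **The core theorem**, in terms of moments. -/
theorem AN1 {𝒜 : Type*} [Ring 𝒜] [StarRing 𝒜] [Algebra ℂ 𝒜] [StarModule ℂ 𝒜]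
    {τ : 𝒜 →ₗ[ℂ] ℂ} (hτ : PosTr τ) (d0 : D) (K : ℕ) {γ : ℝ} (hγ0 : 0 < γ)
    (hγ1 : γ < 2 * Real.pi)
    (H : ∀ ε₀ > 0, ∃ (a J : Matrix D D ℂ) (A : 𝒜) (Qs : List 𝒜) (β : D → ℝ),
      star a * a = 1 ∧ star J * J = 1 ∧ J * a = star a * J ∧
      K ≤ Module.finrank ℂ (LinearMap.ker (Matrix.toLin' (a - 1))) ∧
      star A * A = 1 ∧ (∀ k : ℕ, τ (A ^ k) = (a ^ k).trace) ∧
      (∀ Q ∈ Qs, star Q = Q ∧ Q * Q = Q) ∧
      (Qs.map fun Q => (τ Q).re).sum + 2 ≤ Fintype.card D + K ∧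
      (∀ d, d ≠ d0 → -ε₀ < β d ∧ β d < 0) ∧ (γ - ε₀ < β d0 ∧ β d0 < γ + ε₀) ∧
      ∀ k : ℕ, τ ((A * (Qs.map fun Q => 1 - 2 * Q).prod) ^ k) = ∑ d, exp (I * k * β d)) :
    False := by
  classical
  have hpi := Real.pi_pos
  have hD : (1 : ℝ) ≤ Fintype.card D := by
    exact_mod_cast Fintype.card_pos_iff.2 ⟨d0⟩
  set cD : ℝ := (Fintype.card D : ℝ) with hcD
  set δ : ℝ := min γ (2 * Real.pi - γ) with hδ
  have hδ0 : 0 < δ := lt_min hγ0 (by linarith)
  have hδ1 : δ ≤ γ := min_le_left _ _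
  have hδ2 : δ ≤ 2 * Real.pi - γ := min_le_right _ _
  set ε₀ : ℝ := δ / (8 * cD) with hε₀
  have hε₀pos : 0 < ε₀ := by positivity
  have hε₀le : ε₀ * cD = δ / 8 := by
    rw [hε₀]
    field_simp
  have hε₀le' : ε₀ ≤ ε₀ * cD := le_mul_of_one_le_right hε₀pos.le hD
  obtain ⟨a, J, A, Qs, β, ha, hJ, hJa, hK, hA0, hAt, hQs, htr, hβ, hβ0, hprod⟩ := H ε₀ hε₀pos
  obtain ⟨q, hq1, hq2, hq3, hq4⟩ := exists_proj a
  set r : ℕ := Module.finrank ℂ (LinearMap.ker (Matrix.toLin' (a - 1))) with hr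
  obtain ⟨η, hη0, hη1, hη2⟩ : ∃ η : ℝ, 0 < η ∧ η < ε₀ ∧ ∀ d, d ≠ d0 → η + β d < 0 := by
    have h1 : ∀ᶠ η in 𝓝[>] (0 : ℝ), η < ε₀ :=
      (eventually_lt_nhds hε₀pos).filter_mono nhdsWithin_le_nhds
    have h2 : ∀ d, d ≠ d0 → ∀ᶠ η in 𝓝[>] (0 : ℝ), η + β d < 0 := by
      intro d hd
      have h3 : ∀ᶠ η in 𝓝 (0 : ℝ), η < -β d := eventually_lt_nhds (by linarith [(hβ d hd).2])
      filter_upwards [h3.filter_mono nhdsWithin_le_nhds] with η hη
      linarith
    have h3 : ∀ᶠ η in 𝓝[>] (0 : ℝ), ∀ d, d ≠ d0 → η + β d < 0 := by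
      rw [eventually_all]
      intro d
      by_cases hd : d = d0
      · exact Eventually.of_forall fun η h => absurd hd h
      · filter_upwards [h2 d hd] with η hη _
        exact hη
    obtain ⟨η, ⟨hη1, hη2⟩, hη0⟩ := ((h1.and h3).and self_mem_nhdsWithin).exists
    exact ⟨η, hη0, hη1, hη2⟩
  set U := Multiplicative ℤ
  have hA : star (sc a : Matrix D D (MonoidAlgebra ℂ U)) * sc a = 1 := by
    rw [← sc_star, ← sc_mul, ha, sc_one]
  have htrace : ∀ k : ℕ, trM ((sc a : Matrix D D (MonoidAlgebra ℂ U)) ^ k) = (a ^ k).trace := by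
    intro k
    rw [← sc_pow, trM_sc]
  have hreal : ∀ k : ℕ, (starRingEnd ℂ) (trM ((sc a : Matrix D D (MonoidAlgebra ℂ U)) ^ k)) =
      trM ((sc a : Matrix D D (MonoidAlgebra ℂ U)) ^ k) := by
    intro k
    rw [htrace]
    have h1 : ∀ k : ℕ, J * a ^ k = star a ^ k * J := by
      intro k
      induction k with
      | zero => simp
      | succ k ih => rw [pow_succ, ← mul_assoc, ih, mul_assoc, hJa, ← mul_assoc, ← pow_succ]
    have hJ' : J * star J = 1 := mul_eq_one_comm.1 hJ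
    have h2 : (a ^ k).trace = (star a ^ k).trace := by
      calc (a ^ k).trace = (star J * J * a ^ k).trace := by rw [hJ, one_mul]
        _ = (J * a ^ k * star J).trace := by rw [mul_assoc, Matrix.trace_mul_comm]
        _ = (star a ^ k).trace := by rw [h1, mul_assoc, hJ', mul_one]
    have h3 : (star a ^ k).trace = (starRingEnd ℂ) ((a ^ k).trace) := by
      rw [← star_pow]
      exact Matrix.trace_conjTranspose _
    rw [← h3, ← h2]
  have hQ1 : star (sc q : Matrix D D (MonoidAlgebra ℂ U)) = sc q := by rw [← sc_star, hq1]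
  have hQ2 : (sc q : Matrix D D (MonoidAlgebra ℂ U)) * sc q = sc q := by rw [← sc_mul, hq2]
  have hQ3 : (sc a : Matrix D D (MonoidAlgebra ℂ U)) * sc q = sc q := by rw [← sc_mul, hq3]
  have hQ4 : (trM (sc q : Matrix D D (MonoidAlgebra ℂ U))).re = r := by
    rw [trM_sc, hq4, natCast_re]
  have h1tr : (trM (1 : Matrix D D (MonoidAlgebra ℂ U))).re = cD := by
    rw [← sc_one, trM_sc, Matrix.trace_one, natCast_re]
  have hineq : ∀ m : ℕ, 0 < m →
      (∑ d ∈ univ.erase d0, saw m (η + β d)) + saw m (η + β d0) ≤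
        η * (cD - r) + r * saw m η + Real.pi * (cD + K - 2) := by
    intro m hn
    have h1 := chain_ineq hτ hn η Qs hQs A hA0
    have h2 := scalar_est posTr_trM hA hQ1 hQ2 hQ3 hreal hn hη0.le
    rw [hQ4, h1tr] at h2
    simp only [htrace] at h2
    simp only [hprod, hAt] at h1
    rw [GG_sum, ← add_sum_erase univ _ (mem_univ d0)] at h1
    simp only [GG_exp] at h1
    have h5 : Real.pi * (Qs.map fun Q => (τ Q).re).sum ≤ Real.pi * (cD + K - 2) :=
      mul_le_mul_of_nonneg_left (by linarith) hpi.le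
    linarith
  have hL : Tendsto (fun m : ℕ => (∑ d ∈ univ.erase d0, saw m (η + β d)) + saw m (η + β d0))
      atTop (𝓝 ((∑ d ∈ univ.erase d0, (η + β d + Real.pi)) + (η + β d0 - Real.pi))) := by
    refine Tendsto.add (tendsto_finsetSum _ fun d hd => ?_) (tendsto_saw ?_ ?_)
    · have hd' := ne_of_mem_erase hd
      have h1 : -(2 * Real.pi) < η + β d := by
        linarith [(hβ d hd').1]
      exact tendsto_saw_neg (hη2 d hd') h1
    · linarith [hβ0.1]
    · linarith [hβ0.2]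
  have hR : Tendsto (fun m : ℕ => η * (cD - r) + r * saw m η + Real.pi * (cD + K - 2))
      atTop (𝓝 (η * (cD - r) + r * (η - Real.pi) + Real.pi * (cD + K - 2))) := by
    refine Tendsto.add_const _ (Tendsto.const_add _ (Tendsto.const_mul _ ?_))
    exact tendsto_saw hη0 (by linarith)
  have hfin := le_of_tendsto_of_tendsto hL hR
    ((eventually_gt_atTop 0).mono fun m hm => hineq m hm)
  have hcard : ((univ.erase d0).card : ℝ) = cD - 1 := by
    rw [card_erase_of_mem (mem_univ _), card_univ, Nat.cast_sub (Fintype.card_pos_iff.2 ⟨d0⟩)]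
    simp [hcD]
  have hsum : (cD - 1) * (Real.pi - ε₀) ≤ ∑ d ∈ univ.erase d0, (η + β d + Real.pi) := by
    rw [← hcard, ← nsmul_eq_mul]
    refine card_nsmul_le_sum _ _ _ fun d hd => ?_
    linarith [(hβ d (ne_of_mem_erase hd)).1]
  have hKr : (K : ℝ) ≤ r := by exact_mod_cast hK
  have h1 : Real.pi * K ≤ Real.pi * r := mul_le_mul_of_nonneg_left hKr hpi.le
  have h2 : η * cD ≤ ε₀ * cD := mul_le_mul_of_nonneg_right hη1.le (by linarith)
  nlinarith [hβ0.1]

variable {G : Type*} [Group G] {Z : Subgroup G} {φ : G → ℂ}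

theorem Tw.exists_arg (h : Tw Z φ) {z : G} (hz : z ∈ Z) : exp (I * (arg (φ z) : ℂ)) = φ z := by
  have h1 : (starRingEnd ℂ) (φ z) * φ z = 1 := by
    rw [← h.inv z hz, ← h.mul _ (Z.inv_mem hz), inv_mul_cancel, h.one]
  have h2 : ‖φ z‖ = 1 := by
    have h3 := congrArg norm h1
    rw [norm_mul, Complex.norm_conj, norm_one] at h3
    nlinarith [norm_nonneg (φ z)]
  have h3 := norm_mul_exp_arg_mul_I (φ z)
  rw [h2, ofReal_one, one_mul, mul_comm] at h3
  exact h3

theorem Tw.pow (h : Tw Z φ) {z : G} (hz : z ∈ Z) (k : ℕ) : φ (z ^ k) = φ z ^ k := by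
  induction k with
  | zero => rw [pow_zero, pow_zero, h.one]
  | succ k ih => rw [pow_succ', h.mul _ hz, ih, pow_succ']

omit [DecidableEq D] in
/-- Antisymmetric real phases for antisymmetric central labels. -/
theorem Tw.exists_phase (h : Tw Z φ) (ι : Equiv.Perm D) (hι : ∀ d, ι (ι d) = d) (z : D → G)
    (hz : ∀ d, z d ∈ Z) (ha : ∀ d, z (ι d) = (z d)⁻¹) (h0 : ∀ d, ι d = d → z d = 1) :
    ∃ α : D → ℝ, (∀ d, α (ι d) = -α d) ∧ ∀ d, exp (I * (α d : ℂ)) = φ (z d) := by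
  set f := Fintype.equivFin D
  refine ⟨fun d => if f d < f (ι d) then arg (φ (z d)) else
    if f (ι d) < f d then -arg (φ (z (ι d))) else 0, fun d => ?_, fun d => ?_⟩
  · simp only [hι]
    rcases lt_trichotomy (f d) (f (ι d)) with h1 | h1 | h1
    · rw [if_neg h1.asymm, if_pos h1, if_pos h1]
    · rw [if_neg h1.symm.not_lt, if_neg h1.not_lt, if_neg h1.not_lt, if_neg h1.symm.not_lt,
        neg_zero]
    · rw [if_pos h1, if_neg h1.asymm, if_pos h1, neg_neg]
  · rcases lt_trichotomy (f d) (f (ι d)) with h1 | h1 | h1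
    · simp only [if_pos h1]
      exact h.exists_arg (hz d)
    · simp only [if_neg h1.symm.not_lt, if_neg h1.not_lt]
      rw [h0 d (f.injective h1).symm, h.one]
      simp
    · simp only [if_pos h1, if_neg h1.asymm]
      have h2 := h.exists_arg (hz (ι d))
      have h3 : φ (z d) = (starRingEnd ℂ) (φ (z (ι d))) := by
        rw [← h.inv _ (hz _), ha, inv_inv]
      rw [h3, ← h2, ← exp_conj, map_mul, conj_I, conj_ofReal, h2]
      push_cast
      congr 1
      ring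

/-- **Assembly**, with an abstract hermitian symmetry `P`. -/
theorem asm2 (h : Tw Z φ) (d0 : D) (k : HH G) (hk : k.1 ∈ Z) (K t : ℕ) (x : Mn D (HH G))
    (ι : Equiv.Perm D) (θ : D → HH G) (Rs : List (Mn D (HH G)))
    (hι : ∀ d, ι (ι d) = d) (hθ : ∀ d, θ (ι d) = (θ d)⁻¹) (hθ0 : ∀ d, ι d = d → θ d = 1)
    (hθZ : ∀ d, (θ d).1 ∈ Z) (hRs : ∀ R ∈ Rs, IsSw R)
    (hchain : Rs.prod * (x * Im ι θ) = dg fun d => if d = d0 then k else (ee G)⁻¹)
    (hcnt : Rs.length + t + 2 ≤ Fintype.card D + K)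
    (hP : ∀ ϑ : D → ℝ, (∀ d, ϑ (ι d) = -ϑ d) → ∃ P : Matrix D D ℂ, star P = P ∧ P * P = 1 ∧
      K ≤ Module.finrank ℂ (LinearMap.ker (Matrix.toLin' (P * IM ι ϑ - 1))) ∧
      (∀ d e, P (x.σ d) (x.σ.symm e) = P d e) ∧
      (∀ d e, P d e ≠ 0 → x.c d * x.c (x.σ.symm e) = 1) ∧
      (∀ d, P (x.σ d) d ≠ 0 → x.c d = 1) ∧
      ∑ d, P (x.σ d) d = (Fintype.card D : ℂ) - 2 * t) : φ k.1 = 1 := by
  by_contra hne
  have hpi := Real.pi_pos
  obtain ⟨γ, hγ0, hγ1, hγ⟩ : ∃ γ : ℝ, 0 < γ ∧ γ < 2 * Real.pi ∧ exp (I * (γ : ℂ)) = φ k.1 := by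
    have h1 := h.exists_arg hk
    have h2 := neg_pi_lt_arg (φ k.1)
    have h3 := arg_le_pi (φ k.1)
    rcases lt_trichotomy (arg (φ k.1)) 0 with h4 | h4 | h4
    · refine ⟨arg (φ k.1) + 2 * Real.pi, by linarith, by linarith, ?_⟩
      rw [← h1, exp_eq_exp_iff_exists_int]
      refine ⟨1, ?_⟩
      rw [h1]
      push_cast
      ring
    · rw [h4] at h1
      exact absurd (by simpa using h1.symm) hne
    · exact ⟨_, h4, by linarith, h1⟩
  have ht1 : tf φ 1 = 1 := by rw [one_def, tf_single, h.one, mul_one]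
  have hτ : PosTr (trT (tf φ) : Matrix D D (MonoidAlgebra ℂ G) →ₗ[ℂ] ℂ) := posTr_trT h.posTr
  obtain ⟨α, hα1, hα2⟩ := h.exists_phase ι hι (fun d => (θ d).1) hθZ
    (fun d => by rw [hθ]; rfl) (fun d hd => by rw [hθ0 d hd]; rfl)
  refine AN1 hτ d0 K hγ0 hγ1 fun ε₀ hε₀ => ?_
  set κ : ℝ := ((Multiplicative.toAdd k.2 : ℤ) : ℝ) with hκ
  set ε : ℝ := ε₀ / (|κ| + 2) with hε
  have hκ0 := abs_nonneg κ
  have hε1 : 0 < ε := by positivity
  have hε3 : ε * (|κ| + 2) = ε₀ := by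
    rw [hε]
    field_simp
  have hε2 : ε < ε₀ := by nlinarith
  have hε4 : |κ * ε| < ε₀ := by
    rw [abs_mul, abs_of_pos hε1]
    nlinarith
  set ϑ : D → ℝ := fun d => ((Multiplicative.toAdd (θ d).2 : ℤ) : ℝ) * ε + α d with hϑ
  have hϑι : ∀ d, ϑ (ι d) = -ϑ d := by
    intro d
    rw [hϑ]
    simp only
    rw [hθ, hα1, Prod.snd_inv, toAdd_inv]
    push_cast
    ring
  obtain ⟨P, p1, p2, p3, p4, p5, p6, p7⟩ := hP ϑ hϑι
  have hρ : ∀ h, star (rho (G := G) ε h) = rho ε h⁻¹ := star_rho ε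
  have hx : (mat (rho ε) x * sc P) * (mat (rho ε) x * sc P) = 1 := by
    have h1 : mat (rho ε) x * sc P * mat (rho ε) x = sc P := by
      ext1 d e
      rw [Matrix.mul_apply, sum_eq_single (x.σ.symm e), Matrix.mul_apply, sum_eq_single (x.σ d)]
      · rw [mat_apply, if_pos rfl, mat_apply, if_pos (Equiv.apply_symm_apply _ _), sc,
          Matrix.map_apply, Matrix.map_apply, p4, Algebra.algebraMap_eq_smul_one, mul_smul_comm,
          mul_one, smul_mul_assoc, ← map_mul]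
        by_cases h : P d e = 0
        · rw [h, zero_smul, zero_smul]
        · rw [p5 d e h, map_one]
      · intro b _ hb
        rw [mat_apply, if_neg (Ne.symm hb), zero_mul]
      · intro h
        exact absurd (mem_univ _) h
      · intro b _ hb
        rw [mat_apply (rho ε) x b e, if_neg, mul_zero]
        intro h
        exact hb (by rw [← h, Equiv.symm_apply_apply])
      · intro h
        exact absurd (mem_univ _) h
    rw [← mul_assoc, h1, ← sc_mul, p2, sc_one]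
  obtain ⟨Q0, q1, q2, q3, q4⟩ := psi_refl2 ht1 hρ p1 p2 x hx
  obtain ⟨Qs, r1, r2, r3⟩ := chain_list2 ht1 hρ Rs hRs
  have hQ0 : (trT (tf φ) Q0).re = t := by
    have e1 : ∀ d, P (x.σ d) d * tf φ (rho ε (x.c d)) = P (x.σ d) d := by
      intro d
      by_cases h : P (x.σ d) d = 0
      · rw [h, zero_mul]
      · rw [p6 d h, map_one, ht1, mul_one]
    rw [q4]
    simp only [e1]
    rw [p7]
    have : ((Fintype.card D : ℂ) - ((Fintype.card D : ℂ) - 2 * t)) / 2 = (t : ℂ) := by ring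
    rw [this, natCast_re]
  have hnull : ∀ W, trT (tf φ) (mat (rho ε) (Im ι θ) * W) = trT (tf φ) (sc (IM ι ϑ) * W) := by
    intro W
    simp only [trT_apply, Matrix.mul_apply, map_sum]
    refine sum_congr rfl fun d _ => sum_congr rfl fun e _ => ?_
    rw [mat_apply, sc, Matrix.map_apply, IM_apply]
    change tf φ ((if ι d = e then single (θ d).1
      (exp (I * ((Multiplicative.toAdd (θ d).2 : ℤ) : ℂ) * ε)) else 0) * _) = _
    by_cases hde : ι d = e
    · rw [if_pos hde, if_pos hde, Algebra.algebraMap_eq_smul_one, smul_mul_assoc, one_mul,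
        map_smul, smul_eq_mul]
      have e1 : exp (I * (ϑ d : ℂ)) =
          exp (I * ((Multiplicative.toAdd (θ d).2 : ℤ) : ℂ) * ε) * φ (θ d).1 := by
        rw [← hα2, ← exp_add, hϑ]
        congr 1
        push_cast
        ring
      rw [e1]
      induction W e d using MonoidAlgebra.induction_linear with
      | zero => simp
      | add y y' hy hy' => rw [mul_add, map_add, map_add, hy, hy', mul_add]
      | single g c =>
        rw [single_mul_single, tf_single, tf_single, h.mul _ (hθZ d)]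
        ring
    · rw [if_neg hde, if_neg hde, map_zero]
  have hsP : star (sc P : Matrix D D (MonoidAlgebra ℂ G)) = sc P := by rw [← sc_star, p1]
  have hPP : (sc P : Matrix D D (MonoidAlgebra ℂ G)) * sc P = 1 := by rw [← sc_mul, p2, sc_one]
  refine ⟨P * IM ι ϑ, P, sc P * mat (rho ε) (Im ι θ), Qs ++ [Q0],
    fun d => if d = d0 then γ + κ * ε else -ε, ?_, ?_, ?_, p3, ?_, ?_, ?_, ?_, ?_, ?_, ?_⟩
  · rw [star_mul, p1, IM_star hι hϑι, mul_assoc, ← mul_assoc P P, p2, one_mul, IM_sq hι hϑι]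
  · rw [p1, p2]
  · rw [star_mul, p1, IM_star hι hϑι, ← mul_assoc, p2, one_mul, mul_assoc, p2, mul_one]
  · rw [star_mul, hsP, mul_assoc, ← mul_assoc (sc P), hPP, one_mul, mat_unitary hρ]
  · intro j
    have h1 := moments_congr hτ.comm (X := sc P * mat (rho ε) (Im ι θ))
      (Y := sc P * sc (IM ι ϑ)) (fun W => by
        rw [mul_assoc, hτ.comm, mul_assoc, hnull, ← mul_assoc, hτ.comm, mul_assoc]) j 1
    rw [mul_one, mul_one] at h1
    rw [h1, ← sc_mul, ← sc_pow, trT_sc ht1]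
  · intro Q hQ
    rcases List.mem_append.1 hQ with h | h
    · exact r1 Q h
    · rw [List.mem_singleton] at h
      subst h
      exact ⟨q1, q2⟩
  · rw [List.map_append, List.sum_append, r2, List.map_singleton, List.sum_singleton, hQ0]
    exact_mod_cast hcnt
  · intro d hd
    simp only [if_neg hd]
    constructor <;> linarith
  · simp only [if_true]
    have := abs_lt.1 hε4
    constructor <;> linarith [this.1, this.2]
  · intro j
    have e0 : ∀ X Y : Matrix D D (MonoidAlgebra ℂ G),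
        trT (tf φ) ((X * Y) ^ j) = trT (tf φ) ((Y * X) ^ j) := by
      intro X Y
      rcases j with _ | j
      · rw [pow_zero, pow_zero]
      · rw [pow_succ, ← mul_assoc, hτ.comm, ← mul_assoc, ← mul_pow_mul, mul_assoc, ← pow_succ]
    rw [e0, List.map_append, List.prod_append, List.map_singleton, List.prod_singleton, ← q3,
      ← r3]
    have e2 : mat (rho ε) Rs.prod * (mat (rho ε) x * sc P) * (sc P * mat (rho ε) (Im ι θ)) =
        mat (rho ε) Rs.prod * (mat (rho ε) x * mat (rho ε) (Im ι θ)) := by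
      rw [mul_assoc, mul_assoc (mat (rho ε) x), ← mul_assoc (sc P), hPP, one_mul]
    rw [e2, ← mat_mul, ← mat_mul, hchain, mat_dg, Matrix.diagonal_pow, trT_apply]
    refine sum_congr rfl fun d _ => ?_
    rw [Matrix.diagonal_apply_eq, Pi.pow_apply]
    beta_reduce
    by_cases hd : d = d0
    · rw [if_pos hd, if_pos hd]
      change tf φ (single k.1 (exp (I * ((Multiplicative.toAdd k.2 : ℤ) : ℂ) * ε)) ^ j) = _
      rw [single_pow, tf_single, h.pow hk, ← hγ, ← exp_nat_mul, ← exp_nat_mul, ← exp_add, hκ]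
      congr 1
      push_cast
      ring
    · rw [if_neg hd, if_neg hd]
      change tf φ (single (1 : G)⁻¹ (exp (I * ((-1 : ℤ) : ℂ) * ε)) ^ j) = _
      rw [inv_one, single_pow, one_pow, tf_single, h.one, mul_one, ← exp_nat_mul]
      congr 1
      push_cast
      ring

/-- **Assembly on the explicit darts**. -/
theorem asmD2 {R B M I : Type*} {N : ℕ} [DecidableEq R] [DecidableEq B] [DecidableEq M]
    [Fintype R] [Fintype B] [Fintype M] (dec : DecidableEq (Dt R B M N)) (h : Tw Z φ)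
    (nxt : Equiv.Perm R) (c : R → G) (rel : R → I) (hrel : ∀ r, rel (nxt r) = rel r)
    (m0 : M) (k : HH G) (hk : k.1 ∈ Z) (K : ℕ) (ι : Equiv.Perm (Dt R B M N))
    (θ : Dt R B M N → HH G) (Rs : List (Mn (Dt R B M N) (HH G)))
    (hι : ∀ d, ι (ι d) = d) (hθ : ∀ d, θ (ι d) = (θ d)⁻¹) (hθ0 : ∀ d, ι d = d → θ d = 1)
    (hθZ : ∀ d, (θ d).1 ∈ Z) (hRs : ∀ T ∈ Rs, @IsSw _ _ dec _ T)
    (hchain : Rs.prod * (PhiD nxt c * Im ι θ) =
      dg fun d => @ite _ (d = Sum.inr (Sum.inr m0)) (dec _ _) k (ee G)⁻¹)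
    (hcnt : Rs.length + 2 ≤ Fintype.card R * N + 2 * Fintype.card B + Fintype.card M + K)
    (hP : ∀ ϑ : Dt R B M N → ℝ, (∀ d, ϑ (ι d) = -ϑ d) → ∃ π : I → Matrix (Fin N) (Fin N) ℂ,
      (∀ i, star (π i) * π i = 1) ∧
      K ≤ Module.finrank ℂ (LinearMap.ker (Matrix.toLin' (PiM rel π * IM ι ϑ - 1)))) :
    φ k.1 = 1 := by
  obtain rfl : dec = instDecidableEqSum := Subsingleton.elim _ _
  have hcard : Fintype.card (Dt R B M N) =
      2 * (Fintype.card R * N) + 2 * Fintype.card B + Fintype.card M := by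
    rw [Fintype.card_sum, Fintype.card_sum, Fintype.card_prod, Fintype.card_prod,
      Fintype.card_prod, Fintype.card_bool, Fintype.card_fin]
    ring
  refine asm2 h (Sum.inr (Sum.inr m0)) k hk K (Fintype.card R * N) (PhiD nxt c) ι θ Rs hι hθ hθ0
    hθZ hRs hchain (by rw [hcard]; omega) fun ϑ hϑ => ?_
  obtain ⟨π, h1, h2⟩ := hP ϑ hϑ
  have hrel' : ∀ r, rel (nxt.symm r) = rel r := fun r => by
    rw [← hrel (nxt.symm r), Equiv.apply_symm_apply]
  refine ⟨PiM rel π, PiM_star rel π, PiM_sq rel π h1, h2, ?_, ?_, ?_, ?_⟩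
  · intro d e
    rcases d with ⟨r, (_ | _), p⟩ | ⟨b, s⟩ | m <;>
      rcases e with ⟨r', (_ | _), p'⟩ | ⟨b', s'⟩ | m' <;>
      simp [PhiD, PhiS, PiM, PiE, hrel, hrel']
  · intro d e hde
    rcases d with ⟨r, (_ | _), p⟩ | ⟨b, s⟩ | m <;>
      rcases e with ⟨r', (_ | _), p'⟩ | ⟨b', s'⟩ | m' <;>
      simp [PhiD, PhiS, PhiC, PiM, PiE] at hde ⊢
    · rw [hde.1, inv_mul_cancel]
    · rw [hde.1, mul_inv_cancel]
  · intro d hd
    rcases d with ⟨r, (_ | _), p⟩ | ⟨b, s⟩ | m <;>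
      simp [PhiD, PhiS, PhiC, PiM, PiE] at hd ⊢
  · rw [hcard, Fintype.sum_sum_type, Fintype.sum_sum_type]
    have e1 : ∑ a : R × Bool × Fin N, PiM (B := B) (M := M) rel π
        ((PhiD nxt c).σ (Sum.inl a)) (Sum.inl a) = 0 := by
      refine sum_eq_zero fun a _ => ?_
      rcases a with ⟨r, (_ | _), p⟩ <;> simp [PhiD, PhiS, PiM, PiE]
    have e2 : ∑ a : B × Bool, PiM (R := R) (M := M) rel π
        ((PhiD nxt c).σ (Sum.inr (Sum.inl a))) (Sum.inr (Sum.inl a)) = 2 * Fintype.card B := by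
      rw [sum_congr rfl fun a _ => show _ = (1 : ℂ) from ?_]
      · simp [mul_comm]
      · rcases a with ⟨b, s⟩
        cases s <;> simp [PhiD, PhiS, PiM, PiE]
    have e3 : ∑ a : M, PiM (R := R) (B := B) rel π
        ((PhiD nxt c).σ (Sum.inr (Sum.inr a))) (Sum.inr (Sum.inr a)) = Fintype.card M := by
      rw [sum_congr rfl fun a _ => show _ = (1 : ℂ) from ?_]
      · simp
      · simp [PhiD, PhiS, PiM, PiE]
    rw [e1, e2, e3]
    push_cast
    ring

end Vale.Agent.N174B
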