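import Vale.Agent.N174B.Core
import Vale.Agent.P174.H717.Fin
import Vale.Agent.P174.T2.Full

set_option linter.all false

/-!
# Nonsingular systems together with the commutation of the unknowns with a central subgroup
-/

namespace Vale.Agent.N174B

open Vale.Agent.P174 Vale.Agent.P174.H49 Vale.Agent.P174.H717
open Vale.Agent.P174.H834 (Mn IsSw Im HH ee WD Chain nv Let lv lo wv lv_nv exists_cyc
  exists_enum exists_tok expSum_inl expSum_lv sgn exists_cancel)
open Vale.Agent.P174.H834.Mn (mat mat_apply mat_mul mat_one sw dg rot)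
open Monoid.Coprod

variable {m n N : ℕ} {G : Type*} [Group G]

/-- The commutators of the elements of `C` with the unknowns. -/
def comm (C : Subgroup G) (n : ℕ) : Set (Words G n) :=
  {u | ∃ z ∈ C, ∃ j, u = inl z * inr (FreeGroup.of j) * (inl z)⁻¹ * (inr (FreeGroup.of j))⁻¹}

/-- The quotient map. -/
def psi (C : Subgroup G) (n : ℕ) : Words G n →* Words G n ⧸ Subgroup.normalClosure (comm C n) :=
  QuotientGroup.mk' _

/-- The labels in the quotient. -/
def piH (C : Subgroup G) (n : ℕ) : HH G →* Words G n ⧸ Subgroup.normalClosure (comm C n) :=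
  ((psi C n).comp inl).comp (MonoidHom.fst _ _)

/-- The letters in the quotient. -/
def ltH (C : Subgroup G) (n : ℕ) (y : Let n) : Words G n ⧸ Subgroup.normalClosure (comm C n) :=
  psi C n (lv G y)

variable {Z : Subgroup G}

theorem psi_congr {K : Type*} [Group K] (f : Words G n →* K)
    (hf : ∀ z ∈ Z, ∀ j, f (inl z) * f (inr (FreeGroup.of j)) = f (inr (FreeGroup.of j)) * f (inl z))
    {a b : Words G n} (h : psi Z n a = psi Z n b) : f a = f b := by
  have h1 : Subgroup.normalClosure (comm Z n) ≤ f.ker := by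
    apply Subgroup.normalClosure_le_normal
    rintro u ⟨z, hz, j, hu⟩
    rw [hu, SetLike.mem_coe, MonoidHom.mem_ker, map_mul, map_mul, map_mul, map_inv, map_inv, hf z hz j]
    group
  have h2 := h1 (QuotientGroup.eq.1 h)
  rw [MonoidHom.mem_ker, map_mul, map_inv, inv_mul_eq_one] at h2
  exact h2

theorem psi_inl_inj {a b : HH G} (h : piH Z n a = piH Z n b) : a.1 = b.1 := by
  have := psi_congr (Z := Z) (Monoid.Coprod.fst : Words G n →* G) (fun z _ j => by simp) h
  simpa using this

theorem psi_ev {D : Type*} (lam : D → Option (Let n)) (c : D → HH G) (L : List D) :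
    psi Z n (H834.ev lam c L) = ev2 (piH Z n) (ltH Z n) lam c L := by
  unfold H834.ev ev2
  rw [map_list_prod, List.map_map]
  congr 1
  apply List.map_congr_left
  intro d _
  rw [Function.comp_apply, map_mul]
  congr 1
  rcases lam d with _ | y
  · exact map_one _
  · rfl

theorem psi_comm {z : G} (hz : z ∈ Z) (j : Fin n) :
    psi Z n (inl z) * psi Z n (inr (FreeGroup.of j)) =
      psi Z n (inr (FreeGroup.of j)) * psi Z n (inl z) := by
  have h1 : psi Z n (inl z * inr (FreeGroup.of j) * (inl z)⁻¹ * (inr (FreeGroup.of j))⁻¹) = 1 :=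
    (QuotientGroup.eq_one_iff _).2 (Subgroup.subset_normalClosure ⟨z, hz, j, rfl⟩)
  rw [map_mul, map_mul, map_mul, map_inv, map_inv, mul_inv_eq_one, mul_inv_eq_iff_eq_mul] at h1
  exact h1

theorem setup (hZ : ∀ z ∈ Z, ∀ x, z * x = x * z) :
    Setup (piH Z n) (ltH Z n) (Z.prod ⊤) (ee G) where
  lt_nv y := by rw [ltH, lv_nv, map_inv]; rfl
  cen z hz x := Prod.ext (hZ z.1 hz.1 x.1) (mul_comm _ _)
  com z hz y := by
    have h1 : Commute (psi Z n (inl z.1)) (psi Z n (inr (FreeGroup.of y.1))) := psi_comm hz.1 y.1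
    rcases y with ⟨j, (_ | _)⟩
    · have h2 : ltH Z n (j, false) = (psi Z n (inr (FreeGroup.of j)))⁻¹ := by
        rw [ltH, ← map_inv]; rfl
      rw [h2]
      exact h1.inv_right.eq.symm
    · exact h1.eq.symm
  e_mem := ⟨Z.one_mem, trivial⟩
  e_val := by
    change psi Z n (inl 1) = 1
    rw [map_one, map_one]
  can L hL a g h := by
    haveI : Z.Normal := ⟨fun z hz x => by rw [← hZ z hz x, mul_inv_cancel_right]; exact hz⟩
    set q : Words G n →* Words (G ⧸ Z) n :=
      Monoid.Coprod.map (QuotientGroup.mk' Z) (MonoidHom.id _) with hq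
    have hlv : ∀ y, q (lv G y) = lv (G ⧸ Z) y := by
      rintro ⟨j, (_ | _)⟩ <;> simp [lv, hq]
    have h1 : psi Z n (inl a.1 * (L.map fun p => lv G p.1 * inl p.2.1).prod) =
        psi Z n (inl g.1) := by
      rw [map_mul, map_list_prod, List.map_map]
      refine Eq.trans ?_ h
      refine congrArg₂ (· * ·) rfl (congrArg List.prod ?_)
      apply List.map_congr_left
      intro p _
      rw [Function.comp_apply, map_mul]
      rfl
    have h2 := psi_congr q (fun z hz j => by
      have : q (inl z) = 1 := by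
        rw [hq, map_apply_inl, QuotientGroup.mk'_apply, (QuotientGroup.eq_one_iff z).2 hz, map_one]
      rw [this, one_mul, mul_one]) h1
    set f : Let n × HH G → Let n × (G ⧸ Z) := fun p => (p.1, QuotientGroup.mk p.2.1) with hf
    have h3 : q (L.map fun p => lv G p.1 * inl p.2.1).prod = wv (L.map f) := by
      rw [map_list_prod, List.map_map, wv, List.map_map]
      congr 1
      apply List.map_congr_left
      intro p _
      simp only [Function.comp_apply, map_mul, hlv, hf]
      rfl
    rw [map_mul, h3] at h2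
    obtain ⟨X', Y', y, d0, hXY⟩ := exists_cancel (L := L.map f) (by simpa using hL)
      (a := QuotientGroup.mk a.1) (g := QuotientGroup.mk g.1) h2
    obtain ⟨X, L1, hX, -, hL1⟩ := List.map_eq_append_iff.1 hXY
    obtain ⟨u, L2, rfl, hu, hL2⟩ := List.map_eq_cons_iff.1 hL1
    obtain ⟨v, Y, rfl, hv, -⟩ := List.map_eq_cons_iff.1 hL2
    simp only [hf, Prod.mk.injEq] at hu hv
    refine ⟨X, Y, y, u.2, v.2, ⟨(QuotientGroup.eq_one_iff _).1 hu.2, trivial⟩, ?_⟩
    rw [hX, ← hv.1, ← hu.1]

variable {φ : G → ℂ}

theorem fin_core2 (hSol : T2.SolStmt (Fin m)) (h : Tw Z φ) (W : WD m n N G) {g : G} (hg : g ∈ Z)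
    (hval : psi Z n (W.Sl.map fun s => W.uv s * W.sv s * (W.uv s)⁻¹).prod =
      psi Z n (Monoid.Coprod.inl g))
    (hrank : (Matrix.of fun (i : Fin m) (j : Fin n) => ((∑ k : Fin (W.ℓ i),
      (if (W.y i k).1 = j then H834.sgn (W.y i k).2 else 0) : ℤ) : ℚ)).rank = m) : φ g = 1 := by
  obtain ⟨x, ⟨Rs0, hlen0, hRs0, hx0⟩, hxσ, hxc⟩ := W.build
  have hev : ev2 (piH Z n) (ltH Z n) W.lam W.cH (W.m0 :: W.L) = piH Z n (g, 1) := by
    rw [← psi_ev, W.val_L, hval]
    rfl
  obtain ⟨ι, θ, k, Rs, hM, hk0, hRs, hlen, hchain⟩ :=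
    reduce2 (setup h.cen) W.lam W.m0 rfl (g, 1) W.L.length W.L rfl W.nodup_L W.cH hev
  have hkg : k.1 = g := psi_inl_inj hk0
  have hx : x = PhiD (nxt W) (fun r => W.c r.1 r.2) := by
    refine Mn.ext' (fun d => ?_) (fun d => ?_)
    · rw [hxσ]
      rcases d with ⟨r, (_ | _), p⟩ | ⟨b, s⟩ | z <;> rfl
    · rw [hxc]
      rcases d with ⟨r, (_ | _), p⟩ | ⟨b, s⟩ | z <;> rfl
  have hall : ∀ d, d ∈ W.m0 :: W.L := W.mem_all
  have hne : ∀ d, d ≠ W.m0 → d ∈ W.L := by
    intro d hd
    rcases List.mem_cons.1 (hall d) with h | h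
    · exact absurd h hd
    · exact h
  have hcard1 : W.L.length + 1 = 2 * (Fintype.card W.R * N) + 2 * Fintype.card W.B +
      Fintype.card W.M := by
    have h1 := length_filter W.nodup_L hall fun _ => true
    rw [List.filter_true, List.length_cons] at h1
    rw [h1, Fintype.card_congr (Equiv.subtypeUnivEquiv fun _ => rfl)]
    have h2 : Fintype.card W.D = Fintype.card (Dt W.R W.B W.M N) := by
      congr 1
    rw [h2, Fintype.card_sum, Fintype.card_sum, Fintype.card_prod, Fintype.card_prod,
      Fintype.card_prod, Fintype.card_bool, Fintype.card_fin]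
    ring
  have hcard2 : (W.L.filter fun d => (W.lam d).isNone).length + 1 = Fintype.card W.M := by
    have h1 := length_filter W.nodup_L hall fun d => (W.lam d).isNone
    have h3 : (W.lam W.m0).isNone = true := rfl
    rw [List.filter_cons_of_pos (p := fun d => (W.lam d).isNone) h3, List.length_cons] at h1
    rw [h1]
    symm
    refine Fintype.card_congr (Equiv.ofBijective
      (fun z : W.M => (⟨Sum.inr (Sum.inr z), rfl⟩ : {d // (W.lam d).isNone = true})) ⟨?_, ?_⟩)
    · intro z z' h
      exact Sum.inr_injective (Sum.inr_injective (Subtype.ext_iff.1 h))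
    · rintro ⟨⟨r, (_ | _), p⟩ | ⟨b, s⟩ | z, h⟩
      · simp [WD.lam] at h
      · simp [WD.lam] at h
      · simp [WD.lam] at h
      · exact ⟨z, rfl⟩
  have hcard3 : Fintype.card W.M = 2 * Fintype.card W.Q + 1 := by
    rw [Fintype.card_sum, Fintype.card_prod, Fintype.card_bool, Fintype.card_unit]
    ring
  have hιι := hM.inv
  have hk := W.count_k
  have hchain' : (Rs ++ Rs0).prod * (PhiD (nxt W) (fun r => W.c r.1 r.2) * Im ι θ) =
      dg fun d => if d = W.m0 then k else (ee G)⁻¹ := by
    rw [List.prod_append, ← hx, mul_assoc, ← mul_assoc Rs0.prod, ← hx0, hchain, Dl2]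
    congr 1
    funext d
    by_cases h : d = W.m0
    · rw [if_pos h, if_pos h]
    · rw [if_neg h, if_neg h, if_pos (hne d h)]
  rw [← hkg]
  refine asmD2 inferInstance h (nxt W) (fun r => W.c r.1 r.2) (fun r => r.1) (fun r => rfl)
    (Sum.inr ()) k (hkg ▸ hg) (2 * (N * m) + Fintype.card W.M) ι θ (Rs ++ Rs0) hιι hM.anti
    hM.θout (fun d => (hM.mem d).1) ?_ hchain' ?_ ?_
  · intro T hT
    rcases List.mem_append.1 hT with h | h
    · exact hRs T h
    · exact hRs0 T h
  · rw [List.length_append, hlen0, hk]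
    have e1 : 2 * m * N = 2 * (N * m) := by ring
    rw [e1]
    generalize Fintype.card W.M = cM at *
    generalize Fintype.card W.B = cB at *
    generalize Fintype.card W.R * N = cR at *
    omega
  · intro ϑ hϑ
    have hr : (Matrix.of fun (i : Fin m) (j : Fin n) => ((∑ r : W.R, if r.1 = i ∧
        (W.y r.1 r.2).1 = j then H834.sgn (W.y r.1 r.2).2 else 0 : ℤ) : ℚ)).rank =
          Fintype.card (Fin m) := by
      rw [Fintype.card_fin]
      refine Eq.trans (congrArg Matrix.rank ?_) hrank
      ext i j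
      rw [Matrix.of_apply, Matrix.of_apply]
      congr 1
      rw [Fintype.sum_sigma, Finset.sum_eq_single i]
      · simp
      · intro b _ hb
        simp [hb]
      · intro h
        exact absurd (Finset.mem_univ _) h
    have h4 : ∀ d, W.lam (ι d) = (W.lam d).map fun x => (x.1, !x.2) := by
      intro d
      rcases hl : W.lam d with _ | y
      · rw [hM.fixed d hl, hl]
        rfl
      · have hd : d ∈ W.L := by
          apply hne
          rintro rfl
          cases hl
        rw [hM.letter d hd y hl]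
        rfl
    have := ker_gen (N := N) hSol (fun r : W.R => r.1) (fun r => (W.y r.1 r.2).1)
      (fun r => (W.y r.1 r.2).2) (fun b => W.bl b) hr ι hιι W.lam
      (fun r s a => by cases s <;> rfl) (fun b s => by cases s <;> rfl) (fun z => rfl) h4
      (fun z => hM.fixed _ rfl) ϑ hϑ
    rwa [Fintype.card_fin] at this

/-- **The data of the long word.** -/
theorem exists_WD2 {w : Fin m → Words G n} (hw : FullRank ℚ w) {v : Words G n} {N : ℕ}
    {L : List (Words G n × Fin m × Bool)} (hL : (L.map (fac w)).prod = v)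
    (hc : ∀ i b, cntE L i b = N) :
    ∃ W : WD m n N G, (W.Sl.map fun s => W.uv s * W.sv s * (W.uv s)⁻¹).prod = v ∧
      ∀ i j, ∑ k : Fin (W.ℓ i), (if (W.y i k).1 = j then sgn (W.y i k).2 else 0) =
        expMatrix w i j := by
  choose a ℓ hℓ y c hcyc using fun i => exists_cyc hw i
  obtain ⟨Sl, u, hn, hm, hLe⟩ := exists_enum N L hc
  set u' : Fin m × Bool × Fin N → Words G n := fun s =>
    if s.2.1 then u s * Monoid.Coprod.inl (a s.1)
    else u s * Monoid.Coprod.inl (a s.1) * (Monoid.Coprod.inl (c s.1 (ℓ s.1 - 1)))⁻¹ with hu'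
  choose tk htk using fun s => exists_tok (u' s)
  let W : WD m n N G := ⟨ℓ, hℓ, y, c, fun s => (tk s).length, fun t => (tk t.1).get t.2, Sl, hn, hm⟩
  have huv : ∀ s, W.uv s = u' s := by
    intro s
    unfold WD.uv WD.Tl
    rw [List.map_map, ← htk s]
    conv_rhs => rw [← List.map_get_finRange (tk s), List.map_map]
    rfl
  refine ⟨W, ?_, ?_⟩
  · rw [← hL, hLe, List.map_map]
    congr 1
    apply List.map_congr_left
    intro s _
    rw [huv]
    obtain ⟨i, b, k⟩ := s
    have h1 : W.rv i (W.ℓ i) = (Monoid.Coprod.inl (a i))⁻¹ * w i * Monoid.Coprod.inl (a i) := by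
      rw [hcyc i]
      unfold WD.rv
      group
      rfl
    have h3 : W.c i (W.ℓ i - 1) = c i (ℓ i - 1) := rfl
    cases b
    · simp only [hu', WD.sv, Bool.false_eq_true, if_false, fac, Function.comp_apply, h1, h3]
      group
    · simp only [hu', WD.sv, if_true, fac, Function.comp_apply, h1]
      group
  · intro i j
    have h1 : ∀ k, Multiplicative.toAdd (expSum G n ((List.range k).map fun k =>
        lv G (y i k) * Monoid.Coprod.inl (c i k)).prod) j =
        ∑ k ∈ Finset.range k, (if (y i k).1 = j then sgn (y i k).2 else 0) := by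
      intro k
      induction k with
      | zero => simp
      | succ k ih =>
        rw [List.range_succ, List.map_append, List.prod_append, map_mul, toAdd_mul, Pi.add_apply,
          ih, Finset.sum_range_succ, List.map_singleton, List.prod_singleton, map_mul,
          expSum_inl, mul_one, expSum_lv]
    have h2 : expMatrix w i j = Multiplicative.toAdd (expSum G n ((List.range (ℓ i)).map fun k =>
        lv G (y i k) * Monoid.Coprod.inl (c i k)).prod) j := by
      unfold expMatrix
      have h4 : expSum G n (w i) = expSum G n ((List.range (ℓ i)).map fun k =>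
          lv G (y i k) * Monoid.Coprod.inl (c i k)).prod := by
        rw [hcyc i, (expSum G n).map_mul, (expSum G n).map_mul, map_inv, expSum_inl, one_mul,
          inv_one, mul_one]
      rw [h4]
    rw [h2, h1, ← Fin.sum_univ_eq_sum_range]

/-- A balanced product of conjugates. -/
theorem exists_balanced2 (w : Fin m → Words G n) (hw : FullRank ℚ w) {v : Words G n}
    (hv : v ∈ Subgroup.normalClosure (Set.range w)) (he : expSum G n v = 1) :
    ∃ (N : ℕ) (L : List (Words G n × Fin m × Bool)),
      (L.map (fac w)).prod = v ∧ ∀ i b, cntE L i b = N := by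
  obtain ⟨L, hL⟩ := exists_fac w hv
  have hN : ∀ i, cntE L i true ≤ Finset.univ.sup fun i => cntE L i true := fun i =>
    Finset.le_sup (f := fun i => cntE L i true) (Finset.mem_univ i)
  obtain ⟨M, h1, h2⟩ := exists_pad w (Finset.univ.sup fun i => cntE L i true)
    (fun i => cntE L i true) hN (List.finRange m) (List.nodup_finRange m)
  have h4 := eq_zero_of_fullRank hw (c := fun i => (cntE L i true : ℤ) - cntE L i false) (by
    intro j
    rw [← expSum_prod, hL, he]
    rfl)
  refine ⟨Finset.univ.sup fun i => cntE L i true, L ++ M, by simp [hL, h1], fun i b => ?_⟩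
  rw [cntE_append, h2, if_pos (List.mem_finRange i)]
  have h3 := hN i
  have h5 := congrFun h4 i
  simp only [Pi.zero_apply] at h5
  cases b <;> omega

/-- The unitary characters of a central subgroup separate its points. -/
theorem exists_tw (hZ : ∀ z ∈ Z, ∀ x, z * x = x * z) {g : G} (hg : g ∈ Z) (h1 : g ≠ 1) :
    ∃ φ : G → ℂ, Tw Z φ ∧ φ g ≠ 1 := by
  classical
  letI : CommGroup Z := { (inferInstance : Group Z) with
    mul_comm := fun a b => Subtype.ext (hZ a a.2 b) }
  have h2 : Additive.ofMul (⟨g, hg⟩ : Z) ≠ 0 := fun h => h1 (congrArg Subtype.val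
    (show (⟨g, hg⟩ : Z) = 1 from h))
  obtain ⟨c, hc⟩ := CharacterModule.exists_character_apply_ne_zero_of_ne_zero h2
  have hper : Function.Periodic (fun x : ℚ => Complex.exp (2 * Real.pi * Complex.I * x)) 1 := by
    intro x
    simp only
    rw [Complex.exp_eq_exp_iff_exists_int]
    refine ⟨1, ?_⟩
    push_cast
    ring
  set E : AddCircle (1 : ℚ) → ℂ := hper.lift with hE
  have Ec : ∀ x : ℚ, E (x : AddCircle (1 : ℚ)) = Complex.exp (2 * Real.pi * Complex.I * x) :=
    fun x => rfl
  have Eadd : ∀ a b, E (a + b) = E a * E b := by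
    intro a b
    induction a using QuotientAddGroup.induction_on with
    | H a =>
      induction b using QuotientAddGroup.induction_on with
      | H b =>
        rw [← QuotientAddGroup.mk_add, Ec, Ec, Ec, ← Complex.exp_add]
        congr 1
        push_cast
        ring
  have Eneg : ∀ a, E (-a) = (starRingEnd ℂ) (E a) := by
    intro a
    induction a using QuotientAddGroup.induction_on with
    | H a =>
      rw [← QuotientAddGroup.mk_neg, Ec, Ec, ← Complex.exp_conj]
      congr 1
      simp only [map_mul, Complex.conj_I, Complex.conj_ofReal, map_ratCast, map_ofNat]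
      push_cast
      ring
  have E0 : E 0 = 1 := by
    rw [← QuotientAddGroup.mk_zero, Ec]
    simp
  have Einj : ∀ a, E a = 1 → a = 0 := by
    intro a
    induction a using QuotientAddGroup.induction_on with
    | H a =>
      intro ha
      rw [Ec, Complex.exp_eq_one_iff] at ha
      obtain ⟨k, hk⟩ := ha
      have h3 : (2 * Real.pi * Complex.I : ℂ) ≠ 0 := Complex.two_pi_I_ne_zero
      have h4 : (a : ℂ) = k := mul_left_cancel₀ h3 (by rw [hk]; ring)
      have h5 : a = k := by exact_mod_cast h4
      rw [QuotientAddGroup.eq_zero_iff, h5]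
      exact ⟨k, by simp⟩
  refine ⟨fun x => if hx : x ∈ Z then E (c (Additive.ofMul ⟨x, hx⟩)) else 0,
    ⟨hZ, ?_, fun z hz x => ?_, fun x hx => dif_neg hx, fun z hz => ?_⟩, ?_⟩
  · simp only [dif_pos Z.one_mem]
    rw [← E0, ← map_zero c]
    rfl
  · by_cases hx : x ∈ Z
    · simp only [dif_pos hz, dif_pos hx, dif_pos (Z.mul_mem hz hx)]
      rw [← Eadd, ← map_add]
      rfl
    · simp only [dif_neg hx, dif_neg (fun h => hx ((Z.mul_mem_cancel_left hz).1 h)), mul_zero]
  · simp only [dif_pos hz, dif_pos (Z.inv_mem hz)]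
    rw [← Eneg, ← map_neg]
    rfl
  · simp only [dif_pos hg]
    exact fun h => hc (Einj _ h)

/-- Howie's conjecture in the form of injectivity. -/
theorem howie_inj (w : Fin m → Words G n) (hw : FullRank ℚ w) {g : G}
    (hg : inl g ∈ Subgroup.normalClosure (Set.range w)) : g = 1 := by
  obtain ⟨N, L, h1, h2⟩ := exists_balanced w hw hg
  exact result_core (fun k => T2.solS (Fin k)) m n w hw g N L h1 h2

theorem expSum_map {K : Type*} [Group K] (f : G →* K) (v : Words G n) :
    expSum K n (Monoid.Coprod.map f (MonoidHom.id _) v) = expSum G n v := by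
  have : (expSum K n).comp (Monoid.Coprod.map f (MonoidHom.id _)) = expSum G n := by
    apply Monoid.Coprod.hom_ext
    · ext g : 1
      simp [expSum]
    · ext j : 1
      simp [expSum]
  exact DFunLike.congr_fun this v

theorem fullRank_map {K : Type*} [Group K] (f : G →* K) {w : Fin m → Words G n} :
    FullRank ℚ (fun i => Monoid.Coprod.map f (MonoidHom.id _) (w i)) ↔ FullRank ℚ w := by
  have : expMatrix (fun i => Monoid.Coprod.map f (MonoidHom.id _) (w i)) = expMatrix w := by
    funext i j
    simp only [expMatrix, expSum_map]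
  rw [FullRank, FullRank, this]

/-- **A nonsingular system stays solvable when the unknowns have to commute with a central
subgroup.** -/
theorem central_inj (hZ : ∀ z ∈ Z, ∀ x, z * x = x * z) (w : Fin m → Words G n)
    (hw : FullRank ℚ w) {g : G}
    (hg : inl g ∈ Subgroup.normalClosure (Set.range w ∪ comm Z n)) : g = 1 := by
  rw [Subgroup.normalClosure_union] at hg
  obtain ⟨v, hv, u, hu, huv⟩ := Subgroup.mem_sup_of_normal_right.1 hg
  have h1 : psi Z n v = psi Z n (inl g) := by
    rw [← huv, map_mul]
    have : psi Z n u = 1 := (QuotientGroup.eq_one_iff _).2 hu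
    rw [this, mul_one]
  haveI : Z.Normal := ⟨fun z hz x => by rw [← hZ z hz x, mul_inv_cancel_right]; exact hz⟩
  have hgZ : g ∈ Z := by
    set q : Words G n →* Words (G ⧸ Z) n :=
      Monoid.Coprod.map (QuotientGroup.mk' Z) (MonoidHom.id _) with hq
    have h2 := psi_congr q (fun z hz j => by
      have : q (inl z) = 1 := by
        rw [hq, map_apply_inl, QuotientGroup.mk'_apply, (QuotientGroup.eq_one_iff z).2 hz, map_one]
      rw [this, one_mul, mul_one]) h1
    rw [← QuotientGroup.eq_one_iff]
    refine howie_inj (fun i => q (w i)) ((fullRank_map _).2 hw) ?_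
    have h3 := Subgroup.map_normalClosure_le (Set.range w) q ⟨v, hv, rfl⟩
    rw [← Set.range_comp, h2] at h3
    exact h3
  by_contra hne
  obtain ⟨φ, hφ, hφg⟩ := exists_tw hZ hgZ hne
  have he : expSum G n v = 1 := by
    rw [psi_congr (expSum G n) (fun z _ j => mul_comm _ _) h1, expSum_inl]
  obtain ⟨N, L, hL, hc⟩ := exists_balanced2 w hw hv he
  obtain ⟨W, hW, hA⟩ := exists_WD2 hw hL hc
  refine hφg (fin_core2 (T2.solS (Fin m)) hφ W hgZ (by rw [hW, h1]) ?_)
  unfold FullRank at hw
  refine Eq.trans (congrArg Matrix.rank ?_) hw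
  ext i j
  rw [Matrix.of_apply, Matrix.map_apply, hA]

end Vale.Agent.N174B
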