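import Vale.Agent.P174.H717.AsmD

/-!
# The trace on the group algebra twisted by a central character, and reflections
-/

namespace Vale.Agent.N174B

open Complex Finset MonoidAlgebra Vale.Agent.P174.H717
open Vale.Agent.P174.H834 (Mn IsSw)
open Vale.Agent.P174.H834.Mn (mat mat_apply mat_mul mat_one sw dg)

variable {G : Type*} [Group G]

/-- The functional on the group algebra given by a function on the group. -/
noncomputable def tf (φ : G → ℂ) : MonoidAlgebra ℂ G →ₗ[ℂ] ℂ where
  toFun x := x.coeff.sum fun g c => c * φ g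
  map_add' x y := by
    rw [coeff_add]
    exact Finsupp.sum_add_index' (fun g => by simp) fun g c d => add_mul _ _ _
  map_smul' c x := by
    rw [coeff_smul, Finsupp.sum_smul_index' (fun g => by simp), RingHom.id_apply, smul_eq_mul,
      Finsupp.mul_sum]
    refine Finsupp.sum_congr fun g _ => ?_
    rw [smul_eq_mul, mul_assoc]

theorem tf_single (φ : G → ℂ) (g : G) (c : ℂ) : tf φ (single g c) = c * φ g := by
  change (single g c).coeff.sum (fun g c => c * φ g) = _
  rw [coeff_single, Finsupp.sum_single_index (by simp)]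

/-- A unitary character of the central subgroup `Z`, extended by zero. -/
structure Tw (Z : Subgroup G) (φ : G → ℂ) : Prop where
  cen : ∀ z ∈ Z, ∀ x, z * x = x * z
  one : φ 1 = 1
  mul : ∀ z ∈ Z, ∀ g, φ (z * g) = φ z * φ g
  out : ∀ g, g ∉ Z → φ g = 0
  inv : ∀ z ∈ Z, φ z⁻¹ = (starRingEnd ℂ) (φ z)

variable {Z : Subgroup G} {φ : G → ℂ}

theorem Tw.comm (h : Tw Z φ) (a b : G) : φ (a * b) = φ (b * a) := by
  have key : ∀ a b : G, a * b ∈ Z → b * a = a * b := by
    intro a b hab
    have := h.cen _ hab a
    calc b * a = a⁻¹ * (a * b * a) := by group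
      _ = a * b := by rw [this]; group
  by_cases h1 : a * b ∈ Z
  · rw [key a b h1]
  · rw [h.out _ h1, h.out]
    intro h2
    exact h1 (by rw [key b a h2]; exact h2)

theorem Tw.inv' (h : Tw Z φ) (a : G) : φ a⁻¹ = (starRingEnd ℂ) (φ a) := by
  by_cases h1 : a ∈ Z
  · exact h.inv a h1
  · rw [h.out _ h1, h.out _ (fun h2 => h1 (inv_mem_iff.1 h2)), map_zero]

theorem Tw.normal (h : Tw Z φ) : Z.Normal :=
  ⟨fun z hz x => by rw [← h.cen z hz x, mul_inv_cancel_right]; exact hz⟩

theorem Tw.posTr (h : Tw Z φ) : PosTr (tf φ) where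
  comm x y := by
    induction x using MonoidAlgebra.induction_linear with
    | zero => simp
    | add x x' hx hx' => rw [add_mul, mul_add, map_add, map_add, hx, hx']
    | single g c =>
      induction y using MonoidAlgebra.induction_linear with
      | zero => simp
      | add y y' hy hy' => rw [add_mul, mul_add, map_add, map_add, hy, hy']
      | single k d =>
        rw [single_mul_single, single_mul_single, tf_single, tf_single, mul_comm c d, h.comm]
  star x := by
    induction x using MonoidAlgebra.induction_linear with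
    | zero => simp
    | add x x' hx hx' => rw [star_add, map_add, map_add, map_add, hx, hx']
    | single g c => rw [star_single, tf_single, tf_single, h.inv', map_mul]
  pos x := by
    classical
    haveI := h.normal
    set u : G → ℂ := fun g => φ ((QuotientGroup.mk g : G ⧸ Z).out⁻¹ * g) with hu
    set T : MonoidAlgebra ℂ G → MonoidAlgebra ℂ (G ⧸ Z) := fun x =>
      x.coeff.sum fun g c => single (QuotientGroup.mk g) (c * u g) with hT
    have T0 : T 0 = 0 := by
      simp only [hT]
      rw [coeff_zero, Finsupp.sum_zero_index]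
    have Tadd : ∀ x y, T (x + y) = T x + T y := by
      intro x y
      simp only [hT]
      rw [coeff_add]
      refine Finsupp.sum_add_index' (fun g => by simp) fun g c d => ?_
      rw [add_mul, single_add]
    have Ts : ∀ g c, T (single g c) = single (QuotientGroup.mk g) (c * u g) := by
      intro g c
      simp only [hT]
      rw [coeff_single, Finsupp.sum_single_index (by simp)]
    have key : ∀ x y : MonoidAlgebra ℂ G, tf φ (star x * y) = tr0 (star (T x) * T y) := by
      intro x y
      induction x using MonoidAlgebra.induction_linear with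
      | zero => simp [T0]
      | add x x' hx hx' => rw [star_add, add_mul, map_add, hx, hx', Tadd, star_add, add_mul, map_add]
      | single g c =>
        induction y using MonoidAlgebra.induction_linear with
        | zero => simp [T0]
        | add y y' hy hy' => rw [mul_add, map_add, hy, hy', Tadd, mul_add, map_add]
        | single k d =>
          rw [Ts, Ts, star_single, star_single, single_mul_single, single_mul_single, tf_single,
            tr0_single]
          by_cases hgk : g⁻¹ * k ∈ Z
          · have e1 : (QuotientGroup.mk g : G ⧸ Z) = QuotientGroup.mk k :=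
              QuotientGroup.eq.2 hgk
            rw [if_pos (by rw [e1, inv_mul_cancel])]
            have e2 : (QuotientGroup.mk g : G ⧸ Z).out⁻¹ * g ∈ Z := by
              rw [← QuotientGroup.eq, QuotientGroup.out_eq']
            have e3 : g⁻¹ * k = ((QuotientGroup.mk g : G ⧸ Z).out⁻¹ * g)⁻¹ *
                ((QuotientGroup.mk k : G ⧸ Z).out⁻¹ * k) := by
              rw [← e1]; group
            rw [e3, h.mul _ (Z.inv_mem e2), h.inv _ e2, map_mul]
            simp only [hu]
            ring
          · rw [h.out _ hgk, mul_zero, if_neg]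
            intro h2
            exact hgk (QuotientGroup.eq.1 (inv_mul_eq_one.1 h2))
    rw [key]
    exact tr0_pos _

variable {D : Type*} [Fintype D] [DecidableEq D] {H : Type*} [Group H]

/-- The trace on matrices given by a functional on the entries. -/
noncomputable def trT (t : MonoidAlgebra ℂ G →ₗ[ℂ] ℂ) :
    Matrix D D (MonoidAlgebra ℂ G) →ₗ[ℂ] ℂ where
  toFun X := ∑ d, t (X d d)
  map_add' X Y := by simp [sum_add_distrib]
  map_smul' c X := by simp [mul_sum]

variable {t : MonoidAlgebra ℂ G →ₗ[ℂ] ℂ}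

omit [DecidableEq D] in
theorem trT_apply (X : Matrix D D (MonoidAlgebra ℂ G)) : trT t X = ∑ d, t (X d d) := rfl

theorem posTr_trT (ht : PosTr t) : PosTr (trT t : Matrix D D (MonoidAlgebra ℂ G) →ₗ[ℂ] ℂ) where
  comm X Y := by
    simp only [trT_apply, Matrix.mul_apply, map_sum]
    rw [sum_comm]
    exact sum_congr rfl fun d _ => sum_congr rfl fun e _ => ht.comm _ _
  star X := by
    simp only [trT_apply, Matrix.star_apply, map_sum]
    exact sum_congr rfl fun d _ => ht.star _
  pos X := by
    simp only [trT_apply, Matrix.mul_apply, map_sum, Matrix.star_apply, re_sum]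
    exact sum_nonneg fun d _ => sum_nonneg fun e _ => ht.pos _

omit [DecidableEq D] in
theorem trT_sc (h1 : t 1 = 1) (a : Matrix D D ℂ) : trT t (sc a) = a.trace := by
  simp only [trT_apply, sc, Matrix.map_apply, Matrix.trace, Matrix.diag_apply]
  refine sum_congr rfl fun d _ => ?_
  rw [Algebra.algebraMap_eq_smul_one, map_smul, h1, smul_eq_mul, mul_one]

/-- A selfadjoint unitary is a reflection. -/
theorem exists_refl2 (ht : t 1 = 1) {X : Matrix D D (MonoidAlgebra ℂ G)} (h1 : star X = X)
    (h2 : X * X = 1) : ∃ Q, star Q = Q ∧ Q * Q = Q ∧ X = 1 - 2 * Q ∧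
      trT t Q = ((Fintype.card D : ℂ) - trT t X) / 2 := by
  obtain ⟨Q, q1, q2, q3, -⟩ := exists_refl h1 h2
  refine ⟨Q, q1, q2, q3, ?_⟩
  have h3 : trT t (1 : Matrix D D (MonoidAlgebra ℂ G)) = (Fintype.card D : ℂ) := by
    rw [← sc_one, trT_sc ht, Matrix.trace_one]
  rw [q3, map_sub, h3, two_mul, map_add]
  ring

theorem trT_sw (ht : t 1 = 1) {ρ : H →* MonoidAlgebra ℂ G} {a b : D} (hab : a ≠ b) (s : H) :
    trT t (mat ρ (sw a b s)) = (Fintype.card D : ℂ) - 2 := by
  rw [trT_apply]
  have h1 : ∀ d, t (mat ρ (sw a b s) d d) =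
      1 - ((if d = a then (1 : ℂ) else 0) + (if d = b then (1 : ℂ) else 0)) := by
    intro d
    rw [mat_apply, P174.H834.Mn.sw_σ, P174.H834.Mn.sw_c]
    by_cases h1 : d = a
    · subst h1
      rw [Equiv.swap_apply_left, if_neg hab.symm, if_pos rfl, if_neg hab]
      simp
    · by_cases h2 : d = b
      · subst h2
        rw [Equiv.swap_apply_right, if_neg hab, if_neg hab.symm, if_pos rfl]
        simp
      · rw [Equiv.swap_apply_of_ne_of_ne h1 h2, if_pos rfl, if_neg h1, if_neg h2, if_neg h1,
          if_neg h2, map_one, ht]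
        simp
  simp only [h1]
  rw [sum_sub_distrib, sum_add_distrib, sum_ite_eq' univ a, sum_ite_eq' univ b]
  simp
  norm_num

/-- A chain of labelled transpositions. -/
theorem chain_list2 (ht : t 1 = 1) {ρ : H →* MonoidAlgebra ℂ G} (hρ : ∀ h, star (ρ h) = ρ h⁻¹)
    (Rs : List (Mn D H)) (hR : ∀ R ∈ Rs, IsSw R) :
    ∃ Qs : List (Matrix D D (MonoidAlgebra ℂ G)), (∀ Q ∈ Qs, star Q = Q ∧ Q * Q = Q) ∧
      (Qs.map fun Q => (trT t Q).re).sum = Rs.length ∧
      mat ρ Rs.prod = (Qs.map fun Q => 1 - 2 * Q).prod := by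
  induction Rs with
  | nil => exact ⟨[], by simp, by simp, by simp [mat_one]⟩
  | cons R Rs ih =>
    obtain ⟨Qs, h1, h2, h3⟩ := ih fun R' h => hR R' (List.mem_cons_of_mem _ h)
    obtain ⟨a, b, s, hab, rfl⟩ := hR R List.mem_cons_self
    have h4 : star (mat ρ (sw a b s)) = mat ρ (sw a b s) := by
      rw [star_mat hρ, sw_inv hab]
    have h5 : mat ρ (sw a b s) * mat ρ (sw a b s) = 1 := by
      have := mat_unitary hρ (sw a b s)
      rwa [h4] at this
    obtain ⟨Q, q1, q2, q3, q4⟩ := exists_refl2 ht h4 h5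
    refine ⟨Q :: Qs, ?_, ?_, ?_⟩
    · intro Q' hQ'
      rcases List.mem_cons.1 hQ' with h | h
      · rw [h]
        exact ⟨q1, q2⟩
      · exact h1 Q' h
    · rw [List.map_cons, List.sum_cons, h2, q4, trT_sw ht hab, List.length_cons]
      have : (((Fintype.card D : ℂ) - ((Fintype.card D : ℂ) - 2)) / 2).re = 1 := by
        have : ((Fintype.card D : ℂ) - ((Fintype.card D : ℂ) - 2)) / 2 = 1 := by ring
        rw [this, one_re]
      rw [this]
      push_cast
      ring
    · rw [List.prod_cons, mat_mul, h3, q3, List.map_cons, List.prod_cons]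

/-- The product of a scalar selfadjoint unitary and of a labelled permutation. -/
theorem psi_refl2 (ht : t 1 = 1) {ρ : H →* MonoidAlgebra ℂ G} (hρ : ∀ h, star (ρ h) = ρ h⁻¹)
    {P : Matrix D D ℂ} (hP : star P = P) (hPP : P * P = 1) (x : Mn D H)
    (hx : (mat ρ x * sc P) * (mat ρ x * sc P) = 1) :
    ∃ Q, star Q = Q ∧ Q * Q = Q ∧ mat ρ x * sc P = 1 - 2 * Q ∧
      trT t Q = ((Fintype.card D : ℂ) - ∑ d, P (x.σ d) d * t (ρ (x.c d))) / 2 := by
  obtain ⟨Q0, p1, p2, p3, -⟩ := psi_refl hρ hP hPP x hx
  have h1 : star (mat ρ x * sc P) = mat ρ x * sc P := by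
    rw [p3, star_sub, star_one, two_mul, star_add, p1]
  obtain ⟨Q, q1, q2, q3, q4⟩ := exists_refl2 ht h1 hx
  refine ⟨Q, q1, q2, q3, ?_⟩
  rw [q4]
  congr 2
  rw [trT_apply]
  refine sum_congr rfl fun d _ => ?_
  rw [Matrix.mul_apply, sum_eq_single (x.σ d)]
  · rw [mat_apply, if_pos rfl, sc, Matrix.map_apply, Algebra.algebraMap_eq_smul_one,
      mul_smul_comm, mul_one, map_smul, smul_eq_mul]
  · intro e _ he
    rw [mat_apply, if_neg (Ne.symm he), zero_mul]
  · intro h
    exact absurd (mem_univ _) h

/-- Elements that differ by a null element have the same moments. -/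
theorem moments_congr {𝒜 : Type*} [Ring 𝒜] [StarRing 𝒜] [Algebra ℂ 𝒜] {τ : 𝒜 →ₗ[ℂ] ℂ}
    (hτ : ∀ x y, τ (x * y) = τ (y * x)) {X Y : 𝒜} (h : ∀ W, τ (X * W) = τ (Y * W)) (k : ℕ) :
    ∀ W, τ (X ^ k * W) = τ (Y ^ k * W) := by
  induction k with
  | zero => simp
  | succ k ih =>
    intro W
    rw [pow_succ, mul_assoc, ih, ← mul_assoc, mul_assoc, hτ, mul_assoc, h, ← mul_assoc, hτ,
      pow_succ, mul_assoc]

end Vale.Agent.N174B
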